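import Vale.Agent.P100H.Tools
import Vale.Agent.P100H.Start

/-!
# P100, integral-identity route: integration by parts with two derivatives

For `z` of class `C²` with `Δz = -f`, `f` of class `C¹`, and compactly supported `g i` of class `C¹`
away from the origin, `∫ ∑ z_ij ∂_j g_i = ∫ ∑ ∂_i f · g_i`, with no third derivative of `z`.
-/

noncomputable section

namespace Vale.Agent.P100I

open Filter Topology Set MeasureTheory Finset Vale.Agent.P100H

variable {n : ℕ}

/-- the partial derivative in a coordinate direction -/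
def pd (f : E n → ℝ) (i : Fin n) (x : E n) : ℝ := fderiv ℝ f x (cv i)

theorem continuous_cut {K : Set (E n)} (hK : IsClosed K) {a b : E n → ℝ} (ha : Continuous a)
    (ha0 : ∀ x, x ∉ K → a x = 0) (hb : ∀ x ∈ K, ContinuousAt b x) :
    Continuous fun x => a x * b x := by
  refine continuous_iff_continuousAt.2 fun x => ?_
  by_cases hx : x ∈ K
  · exact ha.continuousAt.mul (hb x hx)
  · refine (continuousAt_const (y := (0 : ℝ))).congr ?_
    filter_upwards [hK.isOpen_compl.mem_nhds hx] with z hz
    rw [ha0 z hz, zero_mul]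

theorem integrable_cut' {K : Set (E n)} (hK : IsCompact K) {a b : E n → ℝ} (ha : Continuous a)
    (ha0 : ∀ x, x ∉ K → a x = 0) (hb : ∀ x ∈ K, ContinuousAt b x) :
    Integrable fun x => a x * b x :=
  (continuous_cut hK.isClosed ha ha0 hb).integrable_of_hasCompactSupport
    (HasCompactSupport.intro hK fun x hx => by rw [ha0 x hx, zero_mul])

theorem pd_out {η : E n → ℝ} {K : Set (E n)} (hK : IsClosed K) (h0 : ∀ x, x ∉ K → η x = 0)
    (i : Fin n) {x : E n} (hx : x ∉ K) : pd η i x = 0 := by
  have h : η =ᶠ[𝓝 x] fun _ => 0 := by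
    filter_upwards [hK.isOpen_compl.mem_nhds hx] with z hz
    exact h0 z hz
  rw [pd, h.fderiv_eq, fderiv_fun_const]
  rfl

theorem continuous_pd {η : E n → ℝ} (hη : ContDiff ℝ 1 η) (i : Fin n) : Continuous (pd η i) :=
  (hη.continuous_fderiv one_ne_zero).clm_apply continuous_const

/-- integration by parts on a compact set where the second factor is `C¹` -/
theorem ibp_K {η F : E n → ℝ} {K : Set (E n)} (hK : IsCompact K) (hη : ContDiff ℝ 1 η)
    (h0 : ∀ x, x ∉ K → η x = 0) (hF : ∀ x ∈ K, ContDiffAt ℝ 1 F x) (i : Fin n) :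
    ∫ x, η x * pd F i x = -∫ x, pd η i x * F x := by
  have hts : tsupport η ⊆ K :=
    closure_minimal (fun x hx => by by_contra h; exact hx (h0 x h)) hK.isClosed
  refine integral_mul_fderiv_eq_neg_fderiv_mul_of_integrable ?_ ?_ ?_
    (fun x _ => (hη.differentiable one_ne_zero).differentiableAt)
    (fun x hx => (hF x (hts hx)).differentiableAt one_ne_zero)
  · exact integrable_cut' hK (continuous_pd hη i) (fun x hx => pd_out hK.isClosed h0 i hx)
      fun x hx => (hF x hx).continuousAt
  · exact integrable_cut' hK hη.continuous h0 fun x hx =>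
      (((hF x hx).fderiv_right (m := 0) (by norm_num)).continuousAt).clm_apply continuousAt_const
  · exact integrable_cut' hK hη.continuous h0 fun x hx => (hF x hx).continuousAt

/-- differentiation of a translated integral -/
theorem hasDerivAt_shift {K : Set (E n)} (hK : IsCompact K) (hK0 : (0 : E n) ∉ K) {φ h : E n → ℝ}
    (hφ : Continuous φ) (hφ0 : ∀ x, x ∉ K → φ x = 0) (hh : ∀ x : E n, x ≠ 0 → ContDiffAt ℝ 1 h x)
    (i : Fin n) :
    ∃ ε : ℝ, 0 < ε ∧ (∀ s : ℝ, |s| < ε → ∀ x ∈ K, x + s • cv i ≠ 0) ∧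
      HasDerivAt (fun s : ℝ => ∫ x, φ x * h (x + s • cv i)) (∫ x, φ x * pd h i x) 0 := by
  obtain ⟨ε, hε, hsub⟩ := Metric.mem_nhds_iff.1 (hK.isClosed.isOpen_compl.mem_nhds hK0)
  have hne : ∀ s : ℝ, |s| < ε → ∀ x ∈ K, x + s • cv i ≠ 0 := fun s hs x hx hz => by
    refine hsub ?_ hx
    rw [Metric.mem_ball, dist_zero_right, eq_neg_of_add_eq_zero_left hz, norm_neg, norm_smul, norm_cv,
      mul_one, Real.norm_eq_abs]
    exact hs
  have hc : ∀ s : ℝ, |s| < ε → ∀ x ∈ K, ContinuousAt (fun z => h (z + s • cv i)) x := fun s hs x hx =>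
    ContinuousAt.comp (g := h) (hh _ (hne s hs x hx)).continuousAt (by fun_prop)
  have hd : ∀ y : E n, y ≠ 0 → ContinuousAt (pd h i) y := fun y hy =>
    (((hh y hy).fderiv_right (m := 0) (by norm_num)).continuousAt).clm_apply continuousAt_const
  obtain ⟨M, hM⟩ := (hK.prod (isCompact_Icc (a := -(ε / 2)) (b := ε / 2))).exists_bound_of_continuousOn
    (f := fun z : E n × ℝ => φ z.1 * pd h i (z.1 + z.2 • cv i)) (by
      rintro ⟨x, s⟩ ⟨hx, hs⟩
      refine ContinuousAt.continuousWithinAt ((hφ.comp continuous_fst).continuousAt.mul ?_)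
      exact ContinuousAt.comp (g := pd h i)
        (hd _ (hne s (by have := hs.1; have := hs.2; simp only at *; rw [abs_lt]; constructor <;> linarith) x hx))
        (by fun_prop))
  refine ⟨ε, hε, hne, ?_⟩
  have key := hasDerivAt_integral_of_dominated_loc_of_deriv_le (μ := (volume : Measure (E n)))
    (F := fun (s : ℝ) x => φ x * h (x + s • cv i))
    (F' := fun (s : ℝ) x => φ x * pd h i (x + s • cv i)) (x₀ := (0 : ℝ))
    (bound := K.indicator fun _ => M) (Metric.ball_mem_nhds (0 : ℝ) (half_pos hε)) ?_ ?_ ?_ ?_ ?_ ?_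
  · simpa using key.2
  · filter_upwards [Metric.ball_mem_nhds (0 : ℝ) hε] with s hs
    exact (integrable_cut' hK hφ hφ0 (hc s (by simpa using hs))).aestronglyMeasurable
  · exact integrable_cut' hK hφ hφ0 (hc 0 (by simpa using hε))
  · exact (integrable_cut' hK hφ hφ0 fun x hx =>
      ContinuousAt.comp (g := pd h i) (hd _ (hne 0 (by simpa using hε) x hx)) (by fun_prop)).aestronglyMeasurable
  · refine Eventually.of_forall fun x s hs => ?_
    by_cases hx : x ∈ K
    · rw [indicator_of_mem hx]
      rw [Metric.mem_ball, Real.dist_eq, sub_zero, abs_lt] at hs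
      exact hM (x, s) ⟨hx, hs.1.le, hs.2.le⟩
    · simp [hφ0 x hx, indicator_of_notMem hx]
  · exact (integrable_indicator_iff hK.measurableSet).2 (integrableOn_const hK.measure_ne_top)
  · refine Eventually.of_forall fun x s hs => ?_
    by_cases hx : x ∈ K
    · have hd' := ((hh _ (hne s (by
          rw [Metric.mem_ball, Real.dist_eq, sub_zero] at hs; linarith) x hx)).differentiableAt
          one_ne_zero).hasFDerivAt
      exact (hd'.comp_hasDerivAt s (hasDerivAt_cvline x i s)).const_mul (φ x)
    · simp only [hφ0 x hx, zero_mul]; exact hasDerivAt_const s 0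

/-- the second-order identity -/
theorem hess_ibp {z f : E n → ℝ} {g : Fin n → E n → ℝ} {K : Set (E n)} (hK : IsCompact K)
    (hK0 : (0 : E n) ∉ K) (hz : ∀ x : E n, x ≠ 0 → ContDiffAt ℝ 2 z x)
    (hf : ∀ x : E n, x ≠ 0 → ContDiffAt ℝ 1 f x)
    (hlap : ∀ x : E n, x ≠ 0 → Laplacian.laplacian z x = -f x)
    (hg : ∀ i, ContDiff ℝ 1 (g i)) (hg0 : ∀ i x, x ∉ K → g i x = 0) :
    ∫ x, ∑ i, ∑ j, pd (g i) j x * pd (fun y => pd z j y) i x = ∫ x, ∑ i, g i x * pd f i x := by
  have hz1 : ∀ j, ∀ x : E n, x ≠ 0 → ContDiffAt ℝ 1 (fun y => pd z j y) x := fun j x hx =>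
    ((hz x hx).fderiv_right (m := 1) (by norm_num)).clm_apply contDiffAt_const
  have hne : ∀ x ∈ K, x ≠ 0 := fun x hx h => hK0 (h ▸ hx)
  have hdc : ∀ (F : E n → ℝ) (i : Fin n), (∀ x : E n, x ≠ 0 → ContDiffAt ℝ 1 F x) → ∀ x ∈ K,
      ContinuousAt (pd F i) x := fun F i hF x hx =>
    (((hF x (hne x hx)).fderiv_right (m := 0) (by norm_num)).continuousAt).clm_apply continuousAt_const
  have i1 : ∀ i j, Integrable fun x => pd (g i) j x * pd (fun y => pd z j y) i x := fun i j =>
    integrable_cut' hK (continuous_pd (hg i) j) (fun x hx => pd_out hK.isClosed (hg0 i) j hx)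
      (hdc _ i (hz1 j))
  have i2 : ∀ i, Integrable fun x => g i x * pd f i x := fun i =>
    integrable_cut' hK (hg i).continuous (hg0 i) (hdc _ i hf)
  rw [integral_finsetSum _ fun i _ => integrable_finsetSum _ fun j _ => i1 i j,
    integral_finsetSum _ fun i _ => i2 i]
  refine sum_congr rfl fun i _ => ?_
  rw [integral_finsetSum _ fun j _ => i1 i j]
  choose ε hε hne' hder using fun j => hasDerivAt_shift hK hK0 (continuous_pd (hg i) j)
    (fun x hx => pd_out hK.isClosed (hg0 i) j hx) (hz1 j) i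
  obtain ⟨ε', hε', hne'', hder'⟩ := hasDerivAt_shift hK hK0 (hg i).continuous (hg0 i) hf i
  have hF : HasDerivAt (fun s : ℝ => ∑ j, ∫ x, pd (g i) j x * pd z j (x + s • cv i))
      (∑ j, ∫ x, pd (g i) j x * pd (fun y => pd z j y) i x) 0 :=
    HasDerivAt.fun_sum fun j _ => hder j
  have heq : (fun s : ℝ => ∑ j, ∫ x, pd (g i) j x * pd z j (x + s • cv i)) =ᶠ[𝓝 0]
      fun s : ℝ => ∫ x, g i x * f (x + s • cv i) := by
    filter_upwards [Metric.ball_mem_nhds (0 : ℝ) hε'] with s hs
    have hx0 : ∀ x ∈ K, x + s • cv i ≠ 0 := hne'' s (by simpa using hs)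
    have hw : ∀ j, ∀ x ∈ K, ContDiffAt ℝ 1 (fun y => pd z j (y + s • cv i)) x := fun j x hx =>
      ContDiffAt.comp x (hz1 j _ (hx0 x hx)) (contDiffAt_id.add contDiffAt_const)
    have hp : ∀ j, ∀ x : E n, pd (fun y => pd z j (y + s • cv i)) j x =
        pd (fun y => pd z j y) j (x + s • cv i) := fun j x => by
      simp only [pd]
      rw [fderiv_comp_add_right (f := fun y => fderiv ℝ z y (cv j))]
    have hint : ∀ j, Integrable fun x => g i x * pd (fun y => pd z j (y + s • cv i)) j x := fun j =>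
      integrable_cut' hK (hg i).continuous (hg0 i) fun x hx =>
        (((hw j x hx).fderiv_right (m := 0) (by norm_num)).continuousAt).clm_apply continuousAt_const
    calc ∑ j, ∫ x, pd (g i) j x * pd z j (x + s • cv i)
        = ∑ j, -∫ x, g i x * pd (fun y => pd z j (y + s • cv i)) j x :=
          sum_congr rfl fun j _ => by rw [ibp_K hK (hg i) (hg0 i) (hw j) j, neg_neg]
      _ = -∫ x, g i x * ∑ j, pd (fun y => pd z j (y + s • cv i)) j x := by
          rw [sum_neg_distrib, ← integral_finsetSum _ fun j _ => hint j]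
          simp only [mul_sum]
      _ = ∫ x, g i x * f (x + s • cv i) := by
          rw [← integral_neg]
          refine integral_congr_ae (Eventually.of_forall fun x => ?_)
          by_cases hx : x ∈ K
          · have hy := hx0 x hx
            have e : ∀ j, pd (fun y => pd z j y) j (x + s • cv i) =
                fderiv ℝ (fderiv ℝ z) (x + s • cv i) (cv j) (cv j) := fun j => by
              simp only [pd]
              rw [(((hz _ hy).fderiv_right (m := 1) (by norm_num)).differentiableAt
                one_ne_zero).hasFDerivAt.clm_apply (hasFDerivAt_const (cv j) _) |>.fderiv]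
              simp
            simp only [hp, e, ← lap_eq_sum, hlap _ hy]
            ring
          · simp [hg0 i x hx]
  exact hF.unique (hder'.congr_of_eventuallyEq heq)

end Vale.Agent.P100I
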