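import Vale.Agent.P100I.Defs
import Vale.Agent.P100H.Tools
import Vale.Agent.P100I.Weak

/-!
# P100, integral-identity route: elementary bounds and the cutoff
-/

noncomputable section

namespace Vale.Agent.P100I

open Finset Real Filter Topology Vale.Agent.P100H

variable {n : ℕ}

theorem dot_self_nonneg (a : Fin n → ℝ) : 0 ≤ dot a a := sum_nonneg fun _ _ => mul_self_nonneg _

theorem frob_self_nonneg (U : Fin n → Fin n → ℝ) : 0 ≤ frob U U :=
  sum_nonneg fun _ _ => sum_nonneg fun _ _ => mul_self_nonneg _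

theorem sq_dot_le (a b : Fin n → ℝ) : dot a b ^ 2 ≤ dot a a * dot b b := by
  simpa [dot, sq] using sum_mul_sq_le_sq_mul_sq univ a b

theorem sq_quad_le (U : Fin n → Fin n → ℝ) (a b : Fin n → ℝ) :
    quad U a b ^ 2 ≤ dot a a * (frob U U * dot b b) := by
  have e : quad U a b = dot a fun i => dot (U i) b := by
    simp only [quad, dot, mul_sum]
    exact sum_congr rfl fun i _ => sum_congr rfl fun j _ => by ring
  rw [e]
  refine (sq_dot_le _ _).trans (mul_le_mul_of_nonneg_left ?_ (dot_self_nonneg a))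
  rw [show frob U U = ∑ i, dot (U i) (U i) from rfl, sum_mul]
  exact sum_le_sum fun i _ => by simpa [sq] using sq_dot_le (U i) b

theorem size_nonneg (J : Jet n) : 0 ≤ J.size := by
  have := frob_self_nonneg J.U
  have := frob_self_nonneg J.V
  unfold Jet.size
  positivity

theorem size_pos {J : Jet n} (h : J.Ok) : 0 < J.size := by
  have := frob_self_nonneg J.U
  have := frob_self_nonneg J.V
  have := pow_pos h.posP 2
  unfold Jet.size
  linarith [sq_nonneg J.Q, sq_nonneg (dot J.a J.a), sq_nonneg (dot J.b J.b)]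

theorem young_cube (x y : ℝ) : x ^ 3 * y ≤ 3 / 4 * x ^ 4 + 1 / 4 * y ^ 4 := by
  have h : 0 ≤ (x - y) ^ 2 * (2 * x ^ 2 + (x + y) ^ 2) := by positivity
  linear_combination h / 4

/-- the total size of the coefficients -/
def csum (c : Fin 14 → ℝ) : ℝ :=
  |c 0| + |c 1| + |c 2| + |c 3| + |c 4| + |c 5| + |c 6| + |c 7| + |c 8| + |c 9| + |c 10| + |c 11| + |c 12| + |c 13|

/-- the flux is cubic -/
theorem abs_flux_le (J : Jet n) (c : Fin 14 → ℝ) (d : Fin n → ℝ)
    (hfld : dot d (J.fld c) = c 0 * (dot J.a J.a * dot d J.a) + c 1 * (dot J.a J.a * dot d J.b) +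
        c 2 * (dot J.a J.b * dot d J.a) + c 3 * (dot J.a J.b * dot d J.b) +
        c 4 * (dot J.b J.b * dot d J.a) + c 5 * (dot J.b J.b * dot d J.b) +
        c 6 * (J.P * dot d J.a) + c 7 * (J.P * dot d J.b) +
        c 8 * quad J.U d J.a + c 9 * quad J.U d J.b + c 10 * quad J.V d J.a + c 11 * quad J.V d J.b +
        c 12 * (J.Q * dot d J.a) + c 13 * (J.Q * dot d J.b)) :
    |dot d (J.fld c)| ≤ csum c * (√(√J.size) ^ 3 * √(dot d d)) := by
  set m := √(√J.size)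
  set s := √(dot d d)
  have hm : 0 ≤ m := Real.sqrt_nonneg _
  have hs : 0 ≤ s := Real.sqrt_nonneg _
  have hm2 : m ^ 2 = √J.size := Real.sq_sqrt (Real.sqrt_nonneg _)
  have hm4 : (m ^ 2) ^ 2 = J.size := by rw [hm2, Real.sq_sqrt (size_nonneg J)]
  have hs2 : s ^ 2 = dot d d := Real.sq_sqrt (dot_self_nonneg d)
  have hA : 0 ≤ dot J.a J.a := dot_self_nonneg _
  have hC : 0 ≤ dot J.b J.b := dot_self_nonneg _
  have hU := frob_self_nonneg J.U
  have hV := frob_self_nonneg J.V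
  have hN : J.size = dot J.a J.a ^ 2 + dot J.b J.b ^ 2 + J.P ^ 2 + J.Q ^ 2 + frob J.U J.U + frob J.V J.V := rfl
  have h0 : 0 ≤ m ^ 2 := sq_nonneg m
  have le2 : ∀ {z : ℝ}, z ^ 2 ≤ J.size → |z| ≤ m ^ 2 := fun h => abs_le_of_sq_le_sq (by rwa [hm4]) h0
  have bA : |dot J.a J.a| ≤ m ^ 2 := le2 (by linarith [sq_nonneg J.P, sq_nonneg J.Q, sq_nonneg (dot J.b J.b)])
  have bC : |dot J.b J.b| ≤ m ^ 2 := le2 (by linarith [sq_nonneg J.P, sq_nonneg J.Q, sq_nonneg (dot J.a J.a)])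
  have bP : |J.P| ≤ m ^ 2 := le2 (by linarith [sq_nonneg (dot J.a J.a), sq_nonneg J.Q, sq_nonneg (dot J.b J.b)])
  have bQ : |J.Q| ≤ m ^ 2 := le2 (by linarith [sq_nonneg (dot J.a J.a), sq_nonneg J.P, sq_nonneg (dot J.b J.b)])
  have bB : |dot J.a J.b| ≤ m ^ 2 := le2 (by
    nlinarith [sq_dot_le J.a J.b, sq_nonneg (dot J.a J.a - dot J.b J.b), sq_nonneg J.P, sq_nonneg J.Q])
  have dA : ∀ g : Fin n → ℝ, |dot g g| ≤ m ^ 2 → |dot d g| ≤ s * m := fun g hg =>
    abs_le_of_sq_le_sq (by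
      rw [mul_pow, hs2]
      exact (sq_dot_le d g).trans (mul_le_mul_of_nonneg_left ((le_abs_self _).trans hg) (dot_self_nonneg d)))
      (by positivity)
  have dQ : ∀ (M : Fin n → Fin n → ℝ) (g : Fin n → ℝ), frob M M ≤ J.size → |dot g g| ≤ m ^ 2 →
      |quad M d g| ≤ m ^ 3 * s := fun M g hM hg =>
    abs_le_of_sq_le_sq (by
      refine (sq_quad_le M d g).trans ?_
      rw [show (m ^ 3 * s) ^ 2 = s ^ 2 * ((m ^ 2) ^ 2 * m ^ 2) by ring, hs2, hm4]
      exact mul_le_mul_of_nonneg_left (mul_le_mul hM ((le_abs_self _).trans hg) (dot_self_nonneg g) (size_nonneg J))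
        (dot_self_nonneg d)) (by positivity)
  have pr : ∀ {r : ℝ} (g : Fin n → ℝ), |r| ≤ m ^ 2 → |dot g g| ≤ m ^ 2 → |r * dot d g| ≤ m ^ 3 * s :=
    fun {r} g hr hg => by
      rw [abs_mul]
      exact (mul_le_mul hr (dA g hg) (abs_nonneg _) h0).trans_eq (by ring)
  have hUs : frob J.U J.U ≤ J.size := by
    linarith [sq_nonneg (dot J.a J.a), sq_nonneg (dot J.b J.b), sq_nonneg J.P, sq_nonneg J.Q]
  have hVs : frob J.V J.V ≤ J.size := by
    linarith [sq_nonneg (dot J.a J.a), sq_nonneg (dot J.b J.b), sq_nonneg J.P, sq_nonneg J.Q]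
  have mulc : ∀ {r X : ℝ}, |X| ≤ m ^ 3 * s → |r * X| ≤ |r| * (m ^ 3 * s) := fun h => by
    rw [abs_mul]; exact mul_le_mul_of_nonneg_left h (abs_nonneg _)
  rw [hfld, csum]
  simp only [add_mul]
  refine (abs_add_le _ _).trans (add_le_add ?_ (mulc (pr J.b bQ bC)))
  refine (abs_add_le _ _).trans (add_le_add ?_ (mulc (pr J.a bQ bA)))
  refine (abs_add_le _ _).trans (add_le_add ?_ (mulc (dQ J.V J.b hVs bC)))
  refine (abs_add_le _ _).trans (add_le_add ?_ (mulc (dQ J.V J.a hVs bA)))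
  refine (abs_add_le _ _).trans (add_le_add ?_ (mulc (dQ J.U J.b hUs bC)))
  refine (abs_add_le _ _).trans (add_le_add ?_ (mulc (dQ J.U J.a hUs bA)))
  refine (abs_add_le _ _).trans (add_le_add ?_ (mulc (pr J.b bP bC)))
  refine (abs_add_le _ _).trans (add_le_add ?_ (mulc (pr J.a bP bA)))
  refine (abs_add_le _ _).trans (add_le_add ?_ (mulc (pr J.b bC bC)))
  refine (abs_add_le _ _).trans (add_le_add ?_ (mulc (pr J.a bC bA)))
  refine (abs_add_le _ _).trans (add_le_add ?_ (mulc (pr J.b bB bC)))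
  refine (abs_add_le _ _).trans (add_le_add ?_ (mulc (pr J.a bB bA)))
  refine (abs_add_le _ _).trans (add_le_add ?_ (mulc (pr J.b bA bC)))
  exact mulc (pr J.a bA bA)

/-- absorbing the flux -/
theorem absorb {δ S m t s : ℝ} (hδ : 0 < δ) (hS : 0 ≤ S) :
    4 * t ^ 3 * (S * (m ^ 3 * s)) ≤ δ / 2 * (t ^ 4 * m ^ 4) + (4 * S) * (6 * S / δ) ^ 3 * s ^ 4 := by
  rcases hS.eq_or_lt with h | h
  · rw [← h]; simp only [zero_mul, mul_zero, add_zero]; positivity
  set k := 6 * S / δ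
  have hk : 0 < k := by positivity
  have h1 := young_cube (t * m) (k * s)
  have h2 : 4 * t ^ 3 * (S * (m ^ 3 * s)) = 4 * S / k * ((t * m) ^ 3 * (k * s)) := by field_simp
  rw [h2]
  refine (mul_le_mul_of_nonneg_left h1 (by positivity)).trans ?_
  have e1 : 4 * S / k * (3 / 4 * (t * m) ^ 4) = δ / 2 * (t ^ 4 * m ^ 4) := by simp only [k]; field_simp; ring
  have e2 : 4 * S / k * (1 / 4 * (k * s) ^ 4) ≤ 4 * S * k ^ 3 * s ^ 4 := by
    rw [show 4 * S / k * (1 / 4 * (k * s) ^ 4) = 1 / 4 * (4 * S * k ^ 3 * s ^ 4) by field_simp]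
    nlinarith [show 0 ≤ 4 * S * k ^ 3 * s ^ 4 by positivity]
  rw [mul_add, e1]
  linarith

/-- the far cutoff term is absorbed by the size of the solution -/
theorem outer_young {ω e φ G W N : ℝ} {M : ℕ} (hω : 0 < ω) (he : 0 < e) (hφ : 0 ≤ φ) (hφ1 : φ ≤ 1)
    (hG : 0 ≤ G) (hW : 0 ≤ W) (hWN : W ^ (4 / ω) ≤ N) (hM : ω + 4 ≤ 4 * (M : ℝ)) :
    φ ^ (4 * M - 4) * G ^ 4 * W ≤ e * (φ ^ (4 * M) * (W * N)) + (e⁻¹) ^ (ω / 4) * G ^ (ω + 4) := by
  have hN : 0 ≤ N := (Real.rpow_nonneg hW _).trans hWN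
  have hM2 : 2 ≤ M := by
    rcases Nat.lt_or_ge M 2 with h | h
    · interval_cases M <;> norm_num at hM <;> linarith
    · exact h
  have r1 : 0 ≤ (e⁻¹) ^ (ω / 4) * G ^ (ω + 4) := mul_nonneg (Real.rpow_nonneg (by positivity) _) (Real.rpow_nonneg hG _)
  rcases hφ.eq_or_lt with h | h
  · rw [← h, zero_pow (by omega), zero_pow (by omega)]
    simp only [zero_mul, mul_zero, zero_add]
    exact r1
  by_cases hc : G ^ 4 ≤ e * φ ^ 4 * N
  · calc φ ^ (4 * M - 4) * G ^ 4 * W ≤ φ ^ (4 * M - 4) * (e * φ ^ 4 * N) * W :=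
          mul_le_mul_of_nonneg_right (mul_le_mul_of_nonneg_left hc (by positivity)) hW
      _ = e * (φ ^ (4 * M - 4 + 4) * (W * N)) := by rw [pow_add]; ring
      _ = e * (φ ^ (4 * M) * (W * N)) := by rw [Nat.sub_add_cancel (by omega)]
      _ ≤ _ := le_add_of_nonneg_right r1
  · have h1 : W ^ (4 / ω) ≤ e⁻¹ * (G / φ) ^ 4 := by
      refine hWN.trans ?_
      rw [div_pow, ← mul_div_assoc, le_div_iff₀ (by positivity), le_inv_mul_iff₀ he]
      linarith [le_of_not_ge hc]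
    have h2 : W ≤ (e⁻¹) ^ (ω / 4) * (G / φ) ^ ω := by
      have h3 := Real.rpow_le_rpow (Real.rpow_nonneg hW _) h1 (z := ω / 4) (by positivity)
      rw [← Real.rpow_mul hW, show 4 / ω * (ω / 4) = 1 by field_simp, Real.rpow_one,
        Real.mul_rpow (by positivity) (by positivity), ← Real.rpow_natCast, ← Real.rpow_mul (by positivity),
        show ((4:ℕ):ℝ) * (ω / 4) = ω by push_cast; ring] at h3
      exact h3
    calc φ ^ (4 * M - 4) * G ^ 4 * W ≤ φ ^ (4 * M - 4) * G ^ 4 * ((e⁻¹) ^ (ω / 4) * (G / φ) ^ ω) :=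
          mul_le_mul_of_nonneg_left h2 (by positivity)
      _ = (e⁻¹) ^ (ω / 4) * ((φ ^ (4 * M - 4) / φ ^ ω) * (G ^ 4 * G ^ ω)) := by
          rw [Real.div_rpow hG hφ]; ring
      _ ≤ (e⁻¹) ^ (ω / 4) * (1 * G ^ (ω + 4)) := by
          refine mul_le_mul_of_nonneg_left (mul_le_mul ?_ (le_of_eq ?_) (by positivity) zero_le_one) (by positivity)
          · rw [← Real.rpow_natCast φ (4 * M - 4), ← Real.rpow_sub h]
            refine Real.rpow_le_one hφ hφ1 ?_
            rw [Nat.cast_sub (by omega)]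
            push_cast
            linarith
          · rw [Real.rpow_add' hG (by linarith), show (4:ℝ) = ((4:ℕ):ℝ) by norm_num, Real.rpow_natCast]; ring
      _ ≤ _ := by
          rw [one_mul]
          exact le_add_of_nonneg_left (mul_nonneg he.le (mul_nonneg (by positivity) (mul_nonneg hW hN)))

/-- the cutoff of the annulus `ε ≤ |x| ≤ √2 R` -/
def cut (ε R : ℝ) (x : E n) : ℝ :=
  smoothTransition (‖x‖ ^ 2 / ε ^ 2 - 1) * smoothTransition (2 - ‖x‖ ^ 2 / R ^ 2)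

theorem contDiff_cut (ε R : ℝ) : ContDiff ℝ 1 (cut ε R : E n → ℝ) :=
  (smoothTransition.contDiff.comp (((contDiff_norm_sq ℝ).div_const _).sub contDiff_const)).mul
    (smoothTransition.contDiff.comp (contDiff_const.sub ((contDiff_norm_sq ℝ).div_const _)))

theorem cut_nonneg (ε R : ℝ) (x : E n) : 0 ≤ cut ε R x :=
  mul_nonneg (smoothTransition.nonneg _) (smoothTransition.nonneg _)

theorem cut_le_one (ε R : ℝ) (x : E n) : cut ε R x ≤ 1 :=
  mul_le_one₀ (smoothTransition.le_one _) (smoothTransition.nonneg _) (smoothTransition.le_one _)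

theorem cut_out {ε R : ℝ} (hε : 0 < ε) (hR : 0 < R) {x : E n} (hx : ‖x‖ ≤ ε ∨ 2 * R ≤ ‖x‖) : cut ε R x = 0 := by
  rw [cut]
  rcases hx with h | h
  · rw [smoothTransition.zero_of_nonpos, zero_mul]
    rw [sub_nonpos, div_le_one (by positivity)]
    exact pow_le_pow_left₀ (norm_nonneg x) h 2
  · rw [mul_comm, smoothTransition.zero_of_nonpos, zero_mul]
    rw [sub_nonpos, le_div_iff₀ (by positivity)]
    nlinarith

theorem cut_one {ε R : ℝ} (hε : 0 < ε) (hR : 0 < R) {x : E n} (h1 : 2 * ε ≤ ‖x‖) (h2 : ‖x‖ ≤ R) :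
    cut ε R x = 1 := by
  rw [cut, smoothTransition.one_of_one_le, smoothTransition.one_of_one_le, one_mul]
  · rw [le_sub_comm]; norm_num
    rw [div_le_one (by positivity)]
    exact pow_le_pow_left₀ (norm_nonneg x) h2 2
  · rw [le_sub_iff_add_le, le_div_iff₀ (by positivity)]
    nlinarith

theorem deriv_smoothTransition_bound : ∃ L : ℝ, 0 ≤ L ∧ ∀ t, |deriv smoothTransition t| ≤ L := by
  have hd : Continuous (deriv smoothTransition) :=
    (smoothTransition.contDiff (n := 1)).continuous_deriv le_rfl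
  obtain ⟨B, hB⟩ := (isCompact_Icc (a := (0:ℝ)) (b := 1)).exists_bound_of_continuousOn hd.continuousOn
  refine ⟨max B 0, le_max_right _ _, fun t => ?_⟩
  by_cases ht : t ∈ Set.Icc (0:ℝ) 1
  · exact (hB t ht).trans (le_max_left _ _)
  · have hz : smoothTransition =ᶠ[𝓝 t] fun _ => smoothTransition t := by
      rcases lt_or_ge t 0 with h | h
      · filter_upwards [Iio_mem_nhds h] with y hy
        rw [smoothTransition.zero_of_nonpos (le_of_lt hy), smoothTransition.zero_of_nonpos h.le]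
      · have h1 : 1 < t := lt_of_not_ge fun h1 => ht ⟨h, h1⟩
        filter_upwards [Ioi_mem_nhds h1] with y hy
        rw [smoothTransition.one_of_one_le (le_of_lt hy), smoothTransition.one_of_one_le h1.le]
    rw [hz.deriv_eq, deriv_const, abs_zero]
    exact le_max_right _ _

/-- the gradient of the cutoff -/
theorem grad_cut : ∃ L : ℝ, 0 ≤ L ∧ ∀ {ε R : ℝ}, 0 < ε → ε ≤ 1 / 4 → 4 ≤ R → ∀ x : E n,
    ∑ i, pd (cut ε R) i x ^ 2 ≤
      if ‖x‖ ≤ 2 * ε then (L / ε) ^ 2 else if ‖x‖ ≤ 2 * R then (L / R) ^ 2 else 0 := by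
  obtain ⟨L, hL, hLb⟩ := deriv_smoothTransition_bound
  refine ⟨6 * L, by positivity, fun {ε R} hε hε4 hR x => ?_⟩
  have hR0 : (0:ℝ) < R := by linarith
  set t1 := deriv smoothTransition (‖x‖ ^ 2 / ε ^ 2 - 1)
  set t2 := deriv smoothTransition (2 - ‖x‖ ^ 2 / R ^ 2)
  set g1 := smoothTransition (‖x‖ ^ 2 / ε ^ 2 - 1)
  set g2 := smoothTransition (2 - ‖x‖ ^ 2 / R ^ 2)
  have hn := (hasStrictFDerivAt_norm_sq x).hasFDerivAt
  have hd : ∀ t, HasDerivAt smoothTransition (deriv smoothTransition t) t := fun t =>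
    ((smoothTransition.contDiff (n := 1)).differentiable one_ne_zero t).hasDerivAt
  have h := ((hd _).comp_hasFDerivAt x ((hn.const_mul (ε ^ 2)⁻¹).sub_const 1)).fun_mul
    ((hd _).comp_hasFDerivAt x ((hn.const_mul (R ^ 2)⁻¹).const_sub 2))
  have he : ∀ i, pd (cut ε R) i x = (g2 * t1 * (2 / ε ^ 2) - g1 * t2 * (2 / R ^ 2)) * x i := fun i => by
    have e : (cut ε R : E n → ℝ) = fun y => (smoothTransition ∘ fun y => (ε ^ 2)⁻¹ * ‖y‖ ^ 2 - 1) y *
        (smoothTransition ∘ fun y => 2 - (R ^ 2)⁻¹ * ‖y‖ ^ 2) y := by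
      funext y; simp [cut, div_eq_inv_mul]
    rw [pd, e, h.fderiv]
    simp [g1, g2, t1, t2, inner_cv, div_eq_inv_mul]
    ring
  simp only [he, mul_pow, ← mul_sum, sum_sq]
  have hg1 : |g1| ≤ 1 := by rw [abs_of_nonneg (smoothTransition.nonneg _)]; exact smoothTransition.le_one _
  have hg2 : |g2| ≤ 1 := by rw [abs_of_nonneg (smoothTransition.nonneg _)]; exact smoothTransition.le_one _
  have hout1 : ¬ ‖x‖ ≤ 2 * ε → t1 = 0 := fun hx => by
    have h1 : 1 < ‖x‖ ^ 2 / ε ^ 2 - 1 := by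
      rw [lt_sub_iff_add_lt, lt_div_iff₀ (by positivity)]
      nlinarith [not_le.1 hx]
    have hz : smoothTransition =ᶠ[𝓝 (‖x‖ ^ 2 / ε ^ 2 - 1)] fun _ => (1:ℝ) := by
      filter_upwards [Ioi_mem_nhds h1] with y hy
      exact smoothTransition.one_of_one_le (le_of_lt hy)
    simp [t1, hz.deriv_eq]
  have hin2 : ‖x‖ < R → t2 = 0 := fun hx => by
    have h1 : 1 < 2 - ‖x‖ ^ 2 / R ^ 2 := by
      have : ‖x‖ ^ 2 / R ^ 2 < 1 := by
        rw [div_lt_one (by positivity)]; exact pow_lt_pow_left₀ hx (norm_nonneg x) two_ne_zero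
      linarith
    have hz : smoothTransition =ᶠ[𝓝 (2 - ‖x‖ ^ 2 / R ^ 2)] fun _ => (1:ℝ) := by
      filter_upwards [Ioi_mem_nhds h1] with y hy
      exact smoothTransition.one_of_one_le (le_of_lt hy)
    simp [t2, hz.deriv_eq]
  have hout2 : ¬ ‖x‖ ≤ 2 * R → t2 = 0 := fun hx => by
    have h1 : 2 - ‖x‖ ^ 2 / R ^ 2 < 0 := by
      have : 2 < ‖x‖ ^ 2 / R ^ 2 := by rw [lt_div_iff₀ (by positivity)]; nlinarith [not_le.1 hx]
      linarith
    have hz : smoothTransition =ᶠ[𝓝 (2 - ‖x‖ ^ 2 / R ^ 2)] fun _ => (0:ℝ) := by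
      filter_upwards [Iio_mem_nhds h1] with y hy
      exact smoothTransition.zero_of_nonpos (le_of_lt hy)
    simp [t2, hz.deriv_eq]
  have bnd : ∀ {g t a : ℝ}, 0 < a → |g| ≤ 1 → |t| ≤ L → ‖x‖ ≤ 2 * a →
      (g * t * (2 / a ^ 2)) ^ 2 * ‖x‖ ^ 2 ≤ (6 * L / a) ^ 2 := fun {g t a} ha hg ht hx => by
    have h1 : |g * t| ≤ L := by
      rw [abs_mul]; exact (mul_le_mul hg ht (abs_nonneg _) zero_le_one).trans_eq (one_mul L)
    have h2 : (g * t) ^ 2 ≤ L ^ 2 := sq_le_sq' (abs_le.1 h1).1 (abs_le.1 h1).2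
    calc (g * t * (2 / a ^ 2)) ^ 2 * ‖x‖ ^ 2 ≤ (g * t * (2 / a ^ 2)) ^ 2 * (2 * a) ^ 2 :=
          mul_le_mul_of_nonneg_left (pow_le_pow_left₀ (norm_nonneg x) hx 2) (sq_nonneg _)
      _ = (g * t) ^ 2 * (4 / a) ^ 2 := by field_simp; ring
      _ ≤ L ^ 2 * (6 / a) ^ 2 := by
          refine mul_le_mul h2 (pow_le_pow_left₀ (by positivity) ?_ 2) (sq_nonneg _) (sq_nonneg _)
          exact div_le_div_of_nonneg_right (by norm_num) ha.le
      _ = _ := by ring
  by_cases h1 : ‖x‖ ≤ 2 * ε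
  · rw [if_pos h1, hin2 (by linarith)]
    simpa using bnd hε hg2 (hLb _) h1
  rw [if_neg h1, hout1 h1]
  by_cases h2 : ‖x‖ ≤ 2 * R
  · rw [if_pos h2]
    simpa using bnd hR0 hg1 (hLb _) h2
  · rw [if_neg h2, hout2 h2]
    simp

end Vale.Agent.P100I
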