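import Vale.Agent.P100I.Gram

/-!
# P100, integral-identity route: convex cells

With `c` fixed the inequality `PosAt` is affine in `(p, q, lam, mu)`, so for fixed weights it
holds on a triangle as soon as it holds at the three corners; in the admissible range it
gives a `Cert`.
-/

noncomputable section

namespace Vale.Agent.P100I

variable {n : ℕ}

/-- `PosAt` passes to convex combinations of three corners. -/
theorem posAt_combine {lam mu δ : ℝ} {c : Fin 14 → ℝ} {p₀ q₀ p₁ q₁ p₂ q₂ w₀ w₁ w₂ : ℝ}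
    (h₀ : PosAt n p₀ q₀ lam mu c δ) (h₁ : PosAt n p₁ q₁ lam mu c δ)
    (h₂ : PosAt n p₂ q₂ lam mu c δ) (n₀ : 0 ≤ w₀) (n₁ : 0 ≤ w₁) (n₂ : 0 ≤ w₂)
    (hw : w₀ + w₁ + w₂ = 1) :
    PosAt n (w₀ * p₀ + w₁ * p₁ + w₂ * p₂) (w₀ * q₀ + w₁ * q₁ + w₂ * q₂) lam mu c δ := by
  intro J hJ
  have e0 := mul_le_mul_of_nonneg_left (h₀ J hJ) n₀
  have e1 := mul_le_mul_of_nonneg_left (h₁ J hJ) n₁
  have e2 := mul_le_mul_of_nonneg_left (h₂ J hJ) n₂
  have key : J.dv (w₀ * p₀ + w₁ * p₁ + w₂ * p₂) (w₀ * q₀ + w₁ * q₁ + w₂ * q₂) lam mu c =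
      w₀ * J.dv p₀ q₀ lam mu c + w₁ * J.dv p₁ q₁ lam mu c + w₂ * J.dv p₂ q₂ lam mu c +
        (1 - (w₀ + w₁ + w₂)) * J.dv 0 0 lam mu c := by
    simp only [Jet.dv, Jet.dv0]
    ring
  rw [key, hw, sub_self, zero_mul, add_zero]
  linear_combination e0 + e1 + e2 - (δ * J.size) * hw

/-- A weight `u^lam v^mu` with the pointwise inequality is a certificate when it is admissible. -/
theorem cert_of_posAt {p q lam mu δ : ℝ} {c : Fin 14 → ℝ} (h : PosAt n p q lam mu c δ)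
    (hδ : 0 < δ) (hp : 0 ≤ p) (hq : 0 ≤ q) (hpq : 1 < p * q) (hl : 0 ≤ lam) (hm : 0 ≤ mu)
    (hadm : ((n : ℝ) - 4) * (p * q - 1) < 2 * (lam * (p + 1) + mu * (q + 1))) :
    Nonempty (Cert n p q) := by
  have D : 0 < p * q - 1 := by linarith
  refine ⟨{
    ea := (lam + q * mu) / (p * q - 1)
    eb := (mu + p * lam) / (p * q - 1)
    c := c
    δ := δ
    ea_nonneg := by positivity
    eb_nonneg := by positivity
    adm := ?_
    δ_pos := hδ
    pos := ?_ }⟩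
  · rw [← add_div, mul_div_assoc', lt_div_iff₀ D]
    linarith
  · have e1 : (mu + p * lam) / (p * q - 1) * q - (lam + q * mu) / (p * q - 1) = lam := by
      rw [div_mul_eq_mul_div, div_sub_div_same, div_eq_iff D.ne']
      ring
    have e2 : (lam + q * mu) / (p * q - 1) * p - (mu + p * lam) / (p * q - 1) = mu := by
      rw [div_mul_eq_mul_div, div_sub_div_same, div_eq_iff D.ne']
      ring
    rw [e1, e2]
    exact h

/-- A strip cell: `a ≤ p ≤ b` and `lo ≤ q` below the chord from `(a, hiA)` to `(b, hiB)`. -/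
structure Cell where
  a : ℚ
  b : ℚ
  lo : ℚ
  hiA : ℚ
  hiB : ℚ
  lam : ℚ
  mu : ℚ
  δ : ℚ
  c : Fin 14 → ℚ
  f : Fin 4 → Fin 15 → ℚ

/-- The test of a cell in dimension `n`. -/
def Cell.ok (n : ℕ) (C : Cell) : Bool :=
  decide (C.a < C.b ∧ C.lo < C.hiA ∧ C.lo < C.hiB ∧ 0 ≤ C.lam ∧ 0 ≤ C.mu ∧ 0 < C.δ) &&
  check n C.a C.lo C.lam C.mu C.δ C.c (C.f 0) &&
  check n C.b C.lo C.lam C.mu C.δ C.c (C.f 1) &&
  check n C.b C.hiB C.lam C.mu C.δ C.c (C.f 2) &&
  check n C.a C.hiA C.lam C.mu C.δ C.c (C.f 3)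

/-- Every point of a verified cell satisfies the pointwise inequality. -/
theorem Cell.posAt {C : Cell} (h : C.ok n = true) {p q : ℝ}
    (hpa : (C.a : ℝ) ≤ p) (hpb : p ≤ C.b) (hql : (C.lo : ℝ) ≤ q)
    (hqu : ((C.b : ℝ) - C.a) * q ≤ (C.hiA : ℝ) * (C.b - p) + (C.hiB : ℝ) * (p - C.a)) :
    PosAt n p q C.lam C.mu (fun i => (C.c i : ℝ)) C.δ := by
  simp only [Cell.ok, Bool.and_eq_true, decide_eq_true_eq] at h
  obtain ⟨⟨⟨⟨⟨g0, g1, g2, -, -, -⟩, k0⟩, k1⟩, k2⟩, k3⟩ := h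
  have A0 : (C.a : ℝ) < C.b := by exact_mod_cast g0
  have A1 : (C.lo : ℝ) < C.hiA := by exact_mod_cast g1
  have A2 : (C.lo : ℝ) < C.hiB := by exact_mod_cast g2
  set t : ℝ := (p - C.a) / (C.b - C.a) with ht
  have dba : (0 : ℝ) < C.b - C.a := by linarith
  have t0 : 0 ≤ t := div_nonneg (by linarith) dba.le
  have t1 : t ≤ 1 := by rw [ht, div_le_one dba]; linarith
  have htp : t * ((C.b : ℝ) - C.a) = p - C.a := by rw [ht]; field_simp
  set top : ℝ := (1 - t) * C.hiA + t * C.hiB with htop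
  have top0 : (C.lo : ℝ) < top := by
    rcases t0.lt_or_eq with h' | h'
    · nlinarith [mul_pos h' (sub_pos.2 A2), mul_nonneg (sub_nonneg.2 t1) (sub_pos.2 A1).le]
    · rw [htop, ← h']; linarith
  have qtop : q ≤ top := by
    refine le_of_mul_le_mul_left ?_ dba
    rw [htop]
    linear_combination hqu + ((C.hiA : ℝ) - C.hiB) * htp
  set r : ℝ := (q - C.lo) / (top - C.lo) with hr
  have r0 : 0 ≤ r := div_nonneg (by linarith) (by linarith)
  have r1 : r ≤ 1 := by rw [hr, div_le_one (by linarith)]; linarith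
  have hrq : r * (top - C.lo) = q - C.lo := by
    rw [hr]; field_simp [(sub_pos.2 top0).ne']
  have B := posAt_combine (posAt_of_check k0) (posAt_of_check k1) (posAt_of_check k1)
    (sub_nonneg.2 t1) t0 le_rfl (by ring)
  have T := posAt_combine (posAt_of_check k3) (posAt_of_check k2) (posAt_of_check k2)
    (sub_nonneg.2 t1) t0 le_rfl (by ring)
  have R := posAt_combine B T T (sub_nonneg.2 r1) r0 le_rfl (by ring)
  have ep : (1 - r) * ((1 - t) * (C.a : ℝ) + t * C.b + 0 * C.b) +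
      r * ((1 - t) * (C.a : ℝ) + t * C.b + 0 * C.b) +
      0 * ((1 - t) * (C.a : ℝ) + t * C.b + 0 * C.b) = p := by
    linear_combination htp
  have eq' : (1 - r) * ((1 - t) * (C.lo : ℝ) + t * C.lo + 0 * C.lo) +
      r * ((1 - t) * (C.hiA : ℝ) + t * C.hiB + 0 * C.hiB) +
      0 * ((1 - t) * (C.hiA : ℝ) + t * C.hiB + 0 * C.hiB) = q := by
    rw [htop] at hrq
    linear_combination hrq
  rw [ep, eq'] at R
  exact R

end Vale.Agent.P100I
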