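import Vale.Agent.P100I.Cell

/-!
# P100, integral-identity route: covers in dimension five

A verified chain of strip cells gives a certificate for every exponent pair with
`α, β ≤ 2` and `α + β ≥ s`, where `α = 2(p+1)/(pq-1)`, `β = 2(q+1)/(pq-1)`.
-/

noncomputable section

namespace Vale.Agent.P100I

open Finset

/-- The coefficients after exchanging the two unknowns. -/
def swapC (c : Fin 14 → ℝ) : Fin 14 → ℝ :=
  ![c 5, c 4, c 3, c 2, c 1, c 0, c 13, c 12, c 11, c 10, c 9, c 8, c 7, c 6]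

/-- The jet after exchanging the two unknowns. -/
def Jet.swap {n : ℕ} (J : Jet n) : Jet n := ⟨J.b, J.a, J.V, J.U, J.Q, J.P⟩

theorem PosAt.swap {n : ℕ} {p q lam mu δ : ℝ} {c : Fin 14 → ℝ}
    (h : PosAt n p q lam mu c δ) : PosAt n q p mu lam (swapC c) δ := by
  intro J hJ
  have k := h J.swap ⟨hJ.symV, hJ.symU, hJ.trV, hJ.trU, hJ.posQ, hJ.posP⟩
  simp only [Jet.dv, Jet.dv0, Jet.size, Jet.swap, dot_fld, dot_comm J.b J.a,
    quad_swap J.U hJ.symU J.a J.b, quad_swap J.V hJ.symV J.a J.b, frob_comm J.V J.U] at k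
  simp only [Jet.dv, Jet.dv0, Jet.size, swapC, Matrix.cons_val, dot_fld, dot_comm J.b J.a,
    quad_swap J.U hJ.symU J.a J.b, quad_swap J.V hJ.symV J.a J.b]
  ring_nf at k ⊢
  linarith

/-- The side conditions that make a cell fit the region `α + β ≥ s`, `β ≤ 2`. -/
def Cell.fits (s : ℚ) (C : Cell) : Bool :=
  decide (0 < C.a ∧ (C.lo ≤ C.a ∨ C.lo * (C.b - 1) ≤ 2) ∧ C.hiB ≤ C.hiA ∧
    1 ≤ C.lam + C.mu ∧ 2 * C.a + 4 + s ≤ C.hiA * (s * C.a - 2) ∧
    2 * C.b + 4 + s ≤ C.hiB * (s * C.b - 2))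

/-- A chain of verified cells reaching from `x` to `e`. -/
def chain (s : ℚ) : List Cell → ℚ → ℚ → Bool
  | [], x, e => decide (e ≤ x)
  | C :: L, x, e => decide (C.a ≤ x) && C.fits s && C.ok 5 && chain s L C.b e

theorem exists_cell {s : ℚ} : ∀ (L : List Cell) (x e : ℚ), chain s L x e = true →
    ∀ p : ℝ, (x : ℝ) ≤ p → p < e → ∃ C : Cell, C.fits s = true ∧ C.ok 5 = true ∧
      (C.a : ℝ) ≤ p ∧ p ≤ C.b
  | [], x, e, h, p, hx, he => by
    simp only [chain, decide_eq_true_eq] at h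
    have : (e : ℝ) ≤ x := by exact_mod_cast h
    linarith
  | C :: L, x, e, h, p, hx, he => by
    simp only [chain, Bool.and_eq_true, decide_eq_true_eq] at h
    obtain ⟨⟨⟨ha, hf⟩, hok⟩, hrest⟩ := h
    rcases le_or_gt p (C.b : ℝ) with hb | hb
    · refine ⟨C, hf, hok, ?_, hb⟩
      have : (C.a : ℝ) ≤ x := by exact_mod_cast ha
      linarith
    · exact exists_cell L C.b e hrest p hb.le he

/-- A chain from `s/2` past `1 + 4/s` gives every certificate of the half `p ≤ q`. -/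
theorem posAt_of_chain {s x e : ℚ} {L : List Cell} (h : chain s L x e = true)
    (hs : 3 ≤ s) (hx : 2 * x ≤ s) (he : s + 4 < e * s) {p q : ℝ} (hp : 0 < p)
    (hpq : p ≤ q) (hD : 1 < p * q) (hβ : q + 1 ≤ p * q - 1)
    (hsum : (s : ℝ) * (p * q - 1) ≤ 2 * (p + q + 2)) :
    ∃ lam mu δ : ℝ, ∃ c : Fin 14 → ℝ, 0 < δ ∧ 0 ≤ lam ∧ 0 ≤ mu ∧ 1 ≤ lam + mu ∧
      PosAt 5 p q lam mu c δ := by
  have S : (3 : ℝ) ≤ s := by exact_mod_cast hs
  have X : 2 * (x : ℝ) ≤ s := by exact_mod_cast hx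
  have E : (s : ℝ) + 4 < e * s := by exact_mod_cast he
  set D := p * q - 1 with hDdef
  have D0 : 0 < D := by linarith
  have hq : 0 < q := lt_of_lt_of_le hp hpq
  have p_low : (s : ℝ) / 2 ≤ p := by
    have h1 : p * (q + 1) = p + 1 + D := by rw [hDdef]; ring
    have h2 : p * (q + 1) ≤ p * D := mul_le_mul_of_nonneg_left hβ hp.le
    have h3 : (s : ℝ) * D ≤ 2 * (p * D) := by linarith
    nlinarith
  have key : q * ((s : ℝ) * p - 2) ≤ 2 * p + 4 + s := by rw [hDdef] at hsum; linarith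
  have sp : 0 < (s : ℝ) * p - 2 := by nlinarith
  have p_high : p < e := by
    by_contra hcon
    have hep : (e : ℝ) ≤ p := le_of_not_gt hcon
    nlinarith [mul_le_mul_of_nonneg_right hpq sp.le, mul_le_mul_of_nonneg_right hep
      (by linarith : (0 : ℝ) ≤ s)]
  obtain ⟨C, hf, hok, hpa, hpb⟩ := exists_cell L x e h p (by linarith) p_high
  simp only [Cell.fits, decide_eq_true_eq] at hf
  obtain ⟨fa, flo, fhi, fw, fA, fB⟩ := hf
  have FA : 2 * (C.a : ℝ) + 4 + s ≤ C.hiA * (s * C.a - 2) := by exact_mod_cast fA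
  have FB : 2 * (C.b : ℝ) + 4 + s ≤ C.hiB * (s * C.b - 2) := by exact_mod_cast fB
  have FH : (C.hiB : ℝ) ≤ C.hiA := by exact_mod_cast fhi
  have hql : (C.lo : ℝ) ≤ q := by
    rcases flo with f1 | f1
    · have : (C.lo : ℝ) ≤ C.a := by exact_mod_cast f1
      linarith
    · have F1 : (C.lo : ℝ) * ((C.b : ℝ) - 1) ≤ 2 := by exact_mod_cast f1
      have hp1 : 1 < p := by nlinarith
      by_contra hcon
      have : q < C.lo := lt_of_not_ge hcon
      nlinarith [mul_lt_mul_of_pos_right this (by linarith : (0 : ℝ) < p - 1)]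
  have hqu : ((C.b : ℝ) - C.a) * q ≤
      (C.hiA : ℝ) * (C.b - p) + (C.hiB : ℝ) * (p - C.a) := by
    refine le_of_mul_le_mul_right ?_ sp
    have e1 := mul_le_mul_of_nonneg_left key (by linarith : (0 : ℝ) ≤ C.b - C.a)
    have e2 := mul_le_mul_of_nonneg_left FA (sub_nonneg.2 hpb)
    have e3 := mul_le_mul_of_nonneg_left FB (sub_nonneg.2 hpa)
    have e4 : 0 ≤ (s : ℝ) * (C.hiA - C.hiB) * ((p - C.a) * (C.b - p)) :=
      mul_nonneg (mul_nonneg (by linarith) (sub_nonneg.2 FH))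
        (mul_nonneg (sub_nonneg.2 hpa) (sub_nonneg.2 hpb))
    linear_combination e1 + e2 + e3 + e4
  have hP := Cell.posAt hok hpa hpb hql hqu
  simp only [Cell.ok, Bool.and_eq_true, decide_eq_true_eq] at hok
  obtain ⟨⟨⟨⟨⟨-, -, -, hl, hm, hd⟩, -⟩, -⟩, -⟩, -⟩ := hok
  exact ⟨_, _, _, _, by exact_mod_cast hd, by exact_mod_cast hl, by exact_mod_cast hm,
    by exact_mod_cast fw, hP⟩

/-- A chain gives certificates in dimension five on the region `α, β ≤ 2`, `α + β ≥ s`. -/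
theorem cert_five_of_chain {s x e : ℚ} {L : List Cell} (h : chain s L x e = true)
    (hs : 3 < s) (hx : 2 * x ≤ s) (he : s + 4 < e * s) {p q : ℝ} (hp : 0 < p) (hq : 0 < q)
    (hD : 1 < p * q) (hα : p + 1 ≤ p * q - 1) (hβ : q + 1 ≤ p * q - 1)
    (hsum : (s : ℝ) * (p * q - 1) ≤ 2 * (p + q + 2)) :
    Nonempty (Cert 5 p q) := by
  have S : (3 : ℝ) < s := by exact_mod_cast hs
  have D0 : 0 < p * q - 1 := by linarith
  have a1 : p * q - 1 < 2 * (p + 1) := by nlinarith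
  have b1 : p * q - 1 < 2 * (q + 1) := by nlinarith
  have adm : ∀ lam mu : ℝ, 0 ≤ lam → 0 ≤ mu → 1 ≤ lam + mu →
      ((5 : ℕ) - 4 : ℝ) * (p * q - 1) < 2 * (lam * (p + 1) + mu * (q + 1)) := by
    intro lam mu hl hm hw
    push_cast
    rcases hl.lt_or_eq with hl' | hl'
    · nlinarith [mul_lt_mul_of_pos_left a1 hl', mul_le_mul_of_nonneg_left b1.le hm]
    · nlinarith [mul_le_mul_of_nonneg_left hw (by linarith : (0 : ℝ) ≤ q + 1)]
  rcases le_total p q with hpq | hpq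
  · obtain ⟨lam, mu, δ, c, hd, hl, hm, hw, hP⟩ :=
      posAt_of_chain h hs.le hx he hp hpq hD hβ hsum
    exact cert_of_posAt hP hd hp.le hq.le hD hl hm (adm _ _ hl hm hw)
  · obtain ⟨lam, mu, δ, c, hd, hl, hm, hw, hP⟩ :=
      posAt_of_chain h hs.le hx he hq hpq (by linarith [mul_comm p q] : 1 < q * p)
        (by linarith [mul_comm p q]) (by rw [mul_comm q p]; linarith)
    exact cert_of_posAt hP.swap hd hp.le hq.le hD hm hl (adm _ _ hm hl (by linarith))

end Vale.Agent.P100I
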