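import Mathlib

/-!
# P100, integral-identity route: certificates

At a point, for a positive solution of `-Δu = v^p`, `-Δv = u^q`, put `a = Du/u`, `b = Dv/v`,
`U = D²u/u`, `V = D²v/v`, `P = v^p/u`, `Q = u^q/v`.
For constant `c : Fin 14 → ℝ` the cubic field `fld c` is the combination of
0 `|a|²a`, 1 `|a|²b`, 2 `(a·b)a`, 3 `(a·b)b`, 4 `|b|²a`, 5 `|b|²b`, 6 `P a`, 7 `P b`,
8 `U a`, 9 `U b`, 10 `V a`, 11 `V b`, 12 `Q a`, 13 `Q b`,
and `dv` is `div (u^lam v^mu fld) / (u^lam v^mu)` written in the jet.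
-/

noncomputable section

namespace Vale.Agent.P100I

open Finset

variable {n : ℕ}

/-- The inner product. -/
def dot (a b : Fin n → ℝ) : ℝ := ∑ i, a i * b i

/-- The bilinear form of a matrix. -/
def quad (U : Fin n → Fin n → ℝ) (a b : Fin n → ℝ) : ℝ := ∑ i, ∑ j, U i j * a i * b j

/-- The inner product of two matrices. -/
def frob (U V : Fin n → Fin n → ℝ) : ℝ := ∑ i, ∑ j, U i j * V i j

/-- A two-jet of a solution, normalised. -/
structure Jet (n : ℕ) where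
  a : Fin n → ℝ
  b : Fin n → ℝ
  U : Fin n → Fin n → ℝ
  V : Fin n → Fin n → ℝ
  P : ℝ
  Q : ℝ

/-- The constraints satisfied by the jet of a positive solution. -/
structure Jet.Ok (J : Jet n) : Prop where
  symU : ∀ i j, J.U i j = J.U j i
  symV : ∀ i j, J.V i j = J.V j i
  trU : ∑ i, J.U i i = -J.P
  trV : ∑ i, J.V i i = -J.Q
  posP : 0 < J.P
  posQ : 0 < J.Q

/-- The quantity controlled by a certificate. -/
def Jet.size (J : Jet n) : ℝ :=
  dot J.a J.a ^ 2 + dot J.b J.b ^ 2 + J.P ^ 2 + J.Q ^ 2 + frob J.U J.U + frob J.V J.V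

/-- The cubic vector field. -/
def Jet.fld (J : Jet n) (c : Fin 14 → ℝ) (i : Fin n) : ℝ :=
  c 0 * (dot J.a J.a * J.a i) + c 1 * (dot J.a J.a * J.b i) +
  c 2 * (dot J.a J.b * J.a i) + c 3 * (dot J.a J.b * J.b i) +
  c 4 * (dot J.b J.b * J.a i) + c 5 * (dot J.b J.b * J.b i) +
  c 6 * (J.P * J.a i) + c 7 * (J.P * J.b i) +
  c 8 * (∑ j, J.U i j * J.a j) + c 9 * (∑ j, J.U i j * J.b j) +
  c 10 * (∑ j, J.V i j * J.a j) + c 11 * (∑ j, J.V i j * J.b j) +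
  c 12 * (J.Q * J.a i) + c 13 * (J.Q * J.b i)

/-- The divergence of the fourteen fields, with the derivative of the weight left out. -/
def Jet.dv0 (J : Jet n) (p q : ℝ) (c : Fin 14 → ℝ) : ℝ :=
  c 0 * (2 * quad J.U J.a J.a - 3 * dot J.a J.a ^ 2 - J.P * dot J.a J.a) +
  c 1 * (2 * quad J.U J.a J.b - 2 * dot J.a J.a * dot J.a J.b - dot J.a J.a * dot J.b J.b -
    J.Q * dot J.a J.a) +
  c 2 * (quad J.U J.a J.b + quad J.V J.a J.a - 2 * dot J.a J.a * dot J.a J.b - dot J.a J.b ^ 2 -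
    J.P * dot J.a J.b) +
  c 3 * (quad J.U J.b J.b + quad J.V J.a J.b - dot J.a J.b ^ 2 - 2 * dot J.a J.b * dot J.b J.b -
    J.Q * dot J.a J.b) +
  c 4 * (2 * quad J.V J.a J.b - 2 * dot J.a J.b * dot J.b J.b - dot J.a J.a * dot J.b J.b -
    J.P * dot J.b J.b) +
  c 5 * (2 * quad J.V J.b J.b - 3 * dot J.b J.b ^ 2 - J.Q * dot J.b J.b) +
  c 6 * (p * (J.P * dot J.a J.b) - 2 * (J.P * dot J.a J.a) - J.P ^ 2) +
  c 7 * ((p - 1) * (J.P * dot J.b J.b) - J.P * dot J.a J.b - J.P * J.Q) +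
  c 8 * (frob J.U J.U - 2 * quad J.U J.a J.a - p * (J.P * dot J.a J.b)) +
  c 9 * (frob J.U J.V - quad J.U J.a J.b - quad J.U J.b J.b - p * (J.P * dot J.b J.b)) +
  c 10 * (frob J.U J.V - quad J.V J.a J.b - quad J.V J.a J.a - q * (J.Q * dot J.a J.a)) +
  c 11 * (frob J.V J.V - 2 * quad J.V J.b J.b - q * (J.Q * dot J.a J.b)) +
  c 12 * ((q - 1) * (J.Q * dot J.a J.a) - J.Q * dot J.a J.b - J.P * J.Q) +
  c 13 * (q * (J.Q * dot J.a J.b) - 2 * (J.Q * dot J.b J.b) - J.Q ^ 2)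

/-- The divergence of the weighted field, divided by the weight `u^lam v^mu`. -/
def Jet.dv (J : Jet n) (p q lam mu : ℝ) (c : Fin 14 → ℝ) : ℝ :=
  J.dv0 p q c + lam * dot J.a (J.fld c) + mu * dot J.b (J.fld c)

/-- A certificate: the weight is `P^ea * Q^eb`, and the identity is positive. -/
structure Cert (n : ℕ) (p q : ℝ) where
  ea : ℝ
  eb : ℝ
  c : Fin 14 → ℝ
  δ : ℝ
  ea_nonneg : 0 ≤ ea
  eb_nonneg : 0 ≤ eb
  adm : (n : ℝ) - 4 < 2 * (ea + eb)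
  δ_pos : 0 < δ
  pos : ∀ J : Jet n, J.Ok → δ * J.size ≤ J.dv p q (eb * q - ea) (ea * p - eb) c

end Vale.Agent.P100I
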