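import Vale.Agent.P100I.Weak
import Vale.Agent.P100I.Defs

/-!
# P100, integral-identity route: the fourteen divergences of a solution

`IsDiv V D` says that `D` is, weakly away from the origin, the divergence of `V`.
-/

noncomputable section

namespace Vale.Agent.P100I

open Filter Topology Set MeasureTheory Finset Vale.Agent.P100H

variable {n : ℕ}

/-- continuous away from the origin -/
def C0 (f : E n → ℝ) : Prop := ∀ x : E n, x ≠ 0 → ContinuousAt f x

/-- `C¹` away from the origin -/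
def C1 (f : E n → ℝ) : Prop := ∀ x : E n, x ≠ 0 → ContDiffAt ℝ 1 f x

/-- `C²` and positive away from the origin -/
def C2p (f : E n → ℝ) : Prop := ∀ x : E n, x ≠ 0 → ContDiffAt ℝ 2 f x ∧ 0 < f x

/-- weak divergence away from the origin -/
def IsDiv (V : Fin n → E n → ℝ) (D : E n → ℝ) : Prop :=
  (∀ i, C0 (V i)) ∧ C0 D ∧ ∀ (η : E n → ℝ) (K : Set (E n)), ContDiff ℝ 1 η → IsCompact K →
    (0 : E n) ∉ K → (∀ x, x ∉ K → η x = 0) → ∫ x, η x * D x = -∫ x, ∑ i, pd η i x * V i x

/-- the normalised gradient -/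
def lg (z : E n → ℝ) (i : Fin n) (x : E n) : ℝ := pd z i x / z x

/-- the second derivative -/
def hs (z : E n → ℝ) (i j : Fin n) (x : E n) : ℝ := pd (fun y => pd z j y) i x

/-- the normalised second derivative -/
def nh (z : E n → ℝ) (i j : Fin n) (x : E n) : ℝ := hs z i j x / z x

theorem C1.c0 {f : E n → ℝ} (h : C1 f) : C0 f := fun x hx => (h x hx).continuousAt

theorem C1.pd_c0 {f : E n → ℝ} (h : C1 f) (i : Fin n) : C0 (pd f i) := fun x hx =>
  (((h x hx).fderiv_right (m := 0) (by norm_num)).continuousAt).clm_apply continuousAt_const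

theorem C2p.c1 {f : E n → ℝ} (h : C2p f) : C1 f := fun x hx => (h x hx).1.of_le (by norm_num)

theorem C2p.pd_c1 {f : E n → ℝ} (h : C2p f) (i : Fin n) : C1 (pd f i) := fun x hx =>
  ((h x hx).1.fderiv_right (m := 1) (by norm_num)).clm_apply contDiffAt_const

theorem C2p.ne {f : E n → ℝ} (h : C2p f) {x : E n} (hx : x ≠ 0) : f x ≠ 0 := (h x hx).2.ne'

theorem C2p.lg_c1 {f : E n → ℝ} (h : C2p f) (i : Fin n) : C1 (lg f i) := fun x hx =>
  ((h.pd_c1 i) x hx).div (h.c1 x hx) (h.ne hx)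

theorem C2p.nh_c0 {f : E n → ℝ} (h : C2p f) (i j : Fin n) : C0 (nh f i j) := fun x hx =>
  ((h.pd_c1 j).pd_c0 i x hx).div (h.c1.c0 x hx) (h.ne hx)

theorem hs_eq {z : E n → ℝ} (hz : C2p z) (i j : Fin n) {x : E n} (hx : x ≠ 0) :
    hs z i j x = fderiv ℝ (fderiv ℝ z) x (cv i) (cv j) := by
  rw [hs]
  simp only [pd]
  rw [((((hz x hx).1.fderiv_right (m := 1) (by norm_num)).differentiableAt
    one_ne_zero).hasFDerivAt.clm_apply (hasFDerivAt_const (cv j) _)).fderiv]
  simp

theorem hs_symm {z : E n → ℝ} (hz : C2p z) (i j : Fin n) {x : E n} (hx : x ≠ 0) :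
    hs z i j x = hs z j i x := by
  rw [hs_eq hz i j hx, hs_eq hz j i hx]
  exact (hz x hx).1.isSymmSndFDerivAt (by simp) _ _

theorem nh_symm {z : E n → ℝ} (hz : C2p z) (i j : Fin n) {x : E n} (hx : x ≠ 0) :
    nh z i j x = nh z j i x := by
  rw [nh, nh, hs_symm hz i j hx]

theorem nh_trace {z : E n → ℝ} (hz : C2p z) {x : E n} (hx : x ≠ 0) :
    ∑ i, nh z i i x = Laplacian.laplacian z x / z x := by
  simp only [nh, ← sum_div, hs_eq hz _ _ hx, ← lap_eq_sum]

theorem pd_mul {f g : E n → ℝ} {x : E n} (hf : DifferentiableAt ℝ f x) (hg : DifferentiableAt ℝ g x)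
    (i : Fin n) : pd (fun y => f y * g y) i x = pd f i x * g x + f x * pd g i x := by
  rw [pd, (hf.hasFDerivAt.fun_mul hg.hasFDerivAt).fderiv]
  simp [pd]
  ring

theorem pd_div {f g : E n → ℝ} {x : E n} (hf : DifferentiableAt ℝ f x) (hg : DifferentiableAt ℝ g x)
    (hne : g x ≠ 0) (i : Fin n) :
    pd (fun y => f y / g y) i x = (pd f i x * g x - f x * pd g i x) / g x ^ 2 := by
  have h := hf.hasFDerivAt.fun_mul ((hasDerivAt_inv hne).comp_hasFDerivAt x hg.hasFDerivAt)
  simp only [Function.comp_def] at h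
  simp only [pd, div_eq_mul_inv]
  rw [h.fderiv]
  simp only [_root_.add_apply, _root_.smul_apply, smul_eq_mul]
  field_simp
  ring

theorem pd_sum {ι : Type*} {s : Finset ι} {f : ι → E n → ℝ} {x : E n}
    (hf : ∀ k ∈ s, DifferentiableAt ℝ (f k) x) (i : Fin n) :
    pd (fun y => ∑ k ∈ s, f k y) i x = ∑ k ∈ s, pd (f k) i x := by
  rw [pd, fderiv_fun_sum hf]
  simp [pd]

theorem pd_rpow {f : E n → ℝ} {x : E n} (hf : DifferentiableAt ℝ f x) (hpos : 0 < f x) (r : ℝ)
    (i : Fin n) : pd (fun y => f y ^ r) i x = r * f x ^ r * (pd f i x / f x) := by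
  rw [pd, (hf.hasFDerivAt.rpow_const (Or.inl hpos.ne')).fderiv, Real.rpow_sub_one hpos.ne']
  simp [pd]
  ring

theorem pd_lg {z : E n → ℝ} (hz : C2p z) (i j : Fin n) {x : E n} (hx : x ≠ 0) :
    pd (lg z j) i x = nh z i j x - lg z i x * lg z j x := by
  rw [show lg z j = fun y => pd z j y / z y from rfl, pd_div ((hz.pd_c1 j x hx).differentiableAt one_ne_zero)
    ((hz.c1 x hx).differentiableAt one_ne_zero) (hz.ne hx)]
  simp only [nh, hs, lg]
  field_simp [hz.ne hx]

theorem C1.lift {f η : E n → ℝ} {K : Set (E n)} (hK : IsCompact K) (hK0 : (0 : E n) ∉ K)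
    (hη : ContDiff ℝ 1 η) (h0 : ∀ x, x ∉ K → η x = 0) (hf : C1 f) :
    ContDiff ℝ 1 fun x => η x * f x := by
  refine contDiff_iff_contDiffAt.2 fun x => ?_
  by_cases hx : x ∈ K
  · exact hη.contDiffAt.mul (hf x fun h => hK0 (h ▸ hx))
  · refine (contDiffAt_const (c := (0 : ℝ))).congr_of_eventuallyEq ?_
    filter_upwards [hK.isClosed.isOpen_compl.mem_nhds hx] with z hz
    rw [h0 z hz, zero_mul]

theorem C0.integrable {η g : E n → ℝ} {K : Set (E n)} (hK : IsCompact K) (hK0 : (0 : E n) ∉ K)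
    (hη : Continuous η) (h0 : ∀ x, x ∉ K → η x = 0) (hg : C0 g) : Integrable fun x => η x * g x :=
  integrable_cut' hK hη h0 fun x hx => hg x fun h => hK0 (h ▸ hx)

namespace IsDiv

variable {V V' : Fin n → E n → ℝ} {D D' : E n → ℝ}

theorem congr (h : IsDiv V D) (hV : ∀ i, ∀ x : E n, x ≠ 0 → V' i x = V i x)
    (hD : ∀ x : E n, x ≠ 0 → D' x = D x) : IsDiv V' D' := by
  have hc : ∀ {f g : E n → ℝ}, (∀ x : E n, x ≠ 0 → f x = g x) → C0 g → C0 f := fun hfg hg x hx =>
    (hg x hx).congr (Filter.eventually_of_mem (isOpen_compl_singleton.mem_nhds hx) fun y hy => (hfg y hy).symm)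
  refine ⟨fun i => hc (hV i) (h.1 i), hc hD h.2.1, fun η K hη hK hK0 h0 => ?_⟩
  refine Eq.trans (integral_congr_ae (Eventually.of_forall fun x => ?_)) ((h.2.2 η K hη hK hK0 h0).trans
    (congrArg Neg.neg (integral_congr_ae (Eventually.of_forall fun x => sum_congr rfl fun i _ => ?_))))
  · by_cases hx : x ∈ K
    · simp only [hD x fun e => hK0 (e ▸ hx)]
    · simp [h0 x hx]
  · by_cases hx : x ∈ K
    · rw [hV i x fun e => hK0 (e ▸ hx)]
    · simp [pd_out hK.isClosed h0 i hx]

theorem add (h : IsDiv V D) (h' : IsDiv V' D') :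
    IsDiv (fun i x => V i x + V' i x) (fun x => D x + D' x) := by
  refine ⟨fun i x hx => (h.1 i x hx).add (h'.1 i x hx), fun x hx => (h.2.1 x hx).add (h'.2.1 x hx),
    fun η K hη hK hK0 h0 => ?_⟩
  have i1 : ∀ {W : Fin n → E n → ℝ}, (∀ i, C0 (W i)) → Integrable fun x => ∑ i, pd η i x * W i x :=
    fun hW => integrable_finsetSum _ fun i _ =>
      (hW i).integrable hK hK0 (continuous_pd hη i) fun x hx => pd_out hK.isClosed h0 i hx
  simp only [mul_add, sum_add_distrib]
  rw [integral_add (h.2.1.integrable hK hK0 hη.continuous h0) (h'.2.1.integrable hK hK0 hη.continuous h0),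
    integral_add (i1 h.1) (i1 h'.1), h.2.2 η K hη hK hK0 h0, h'.2.2 η K hη hK hK0 h0]
  ring

theorem smul (h : IsDiv V D) (r : ℝ) : IsDiv (fun i x => r * V i x) (fun x => r * D x) := by
  refine ⟨fun i x hx => (h.1 i x hx).const_mul r, fun x hx => (h.2.1 x hx).const_mul r,
    fun η K hη hK hK0 h0 => ?_⟩
  simp only [mul_left_comm _ r, ← mul_sum, integral_const_mul, h.2.2 η K hη hK hK0 h0]
  ring

end IsDiv

variable {z w W f s : E n → ℝ} {l : Fin n → E n → ℝ}

/-- the field `W s Dz / z` -/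
theorem isDiv_scalar (hW : C1 W) (hl : ∀ i, C0 (l i))
    (hWl : ∀ i, ∀ x : E n, x ≠ 0 → pd W i x = W x * l i x) (hz : C2p z) (hf : C1 f)
    (hlap : ∀ x : E n, x ≠ 0 → Laplacian.laplacian z x = -f x) (hs : C1 s) :
    IsDiv (fun i x => W x * (s x * lg z i x))
      (fun x => W x * ((∑ i, pd s i x * lg z i x) + s x * (-(f x / z x) - ∑ i, lg z i x * lg z i x) +
        s x * ∑ i, l i x * lg z i x)) := by
  have hF : ∀ i, C1 fun x => W x * (s x * lg z i x) := fun i x hx =>
    (hW x hx).mul ((hs x hx).mul (hz.lg_c1 i x hx))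
  refine ⟨fun i => (hF i).c0, fun x hx => (hW.c0 x hx).mul (((?_ : ContinuousAt _ x).add
    ((hs.c0 x hx).mul ((((hf.c0 x hx).div (hz.c1.c0 x hx) (hz.ne hx)).neg).sub ?_))).add
      ((hs.c0 x hx).mul ?_)), fun η K hη hK hK0 h0 => ?_⟩
  · exact tendsto_finsetSum _ fun i _ => (hs.pd_c0 i x hx).mul ((hz.lg_c1 i).c0 x hx)
  · exact tendsto_finsetSum _ fun i _ => ((hz.lg_c1 i).c0 x hx).mul ((hz.lg_c1 i).c0 x hx)
  · exact tendsto_finsetSum _ fun i _ => (hl i x hx).mul ((hz.lg_c1 i).c0 x hx)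
  have i1 : ∀ i, Integrable fun x => η x * pd (fun y => W y * (s y * lg z i y)) i x := fun i =>
    ((hF i).pd_c0 i).integrable hK hK0 hη.continuous h0
  have i2 : ∀ i, Integrable fun x => pd η i x * (W x * (s x * lg z i x)) := fun i =>
    (hF i).c0.integrable hK hK0 (continuous_pd hη i) fun x hx => pd_out hK.isClosed h0 i hx
  rw [integral_finsetSum _ fun i _ => i2 i, ← sum_neg_distrib,
    ← sum_congr rfl fun i _ => ibp_K hK hη h0 (fun x hx => hF i x fun e => hK0 (e ▸ hx)) i,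
    ← integral_finsetSum _ fun i _ => i1 i]
  refine integral_congr_ae (Eventually.of_forall fun x => ?_)
  simp only
  rw [← mul_sum]
  by_cases hxK : x ∈ K
  swap
  · simp [h0 x hxK]
  have hx : x ≠ 0 := fun e => hK0 (e ▸ hxK)
  congr 1
  have e : ∀ i, pd (fun y => W y * (s y * lg z i y)) i x = W x * (pd s i x * lg z i x +
      s x * (nh z i i x - lg z i x * lg z i x) + s x * (l i x * lg z i x)) := fun i => by
    rw [pd_mul ((hW x hx).differentiableAt one_ne_zero)
        (((hs x hx).mul (hz.lg_c1 i x hx)).differentiableAt one_ne_zero),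
      pd_mul ((hs x hx).differentiableAt one_ne_zero) ((hz.lg_c1 i x hx).differentiableAt one_ne_zero),
      pd_lg hz i i hx, hWl i x hx]
    ring
  simp only [e, ← mul_sum, sum_add_distrib, sum_sub_distrib, nh_trace hz hx, hlap x hx]
  ring

/-- the field `W (D²z/z) (Dw/w)` -/
theorem isDiv_hess (hW : C1 W) (hl : ∀ i, C0 (l i))
    (hWl : ∀ i, ∀ x : E n, x ≠ 0 → pd W i x = W x * l i x) (hz : C2p z) (hw : C2p w) (hf : C1 f)
    (hlap : ∀ x : E n, x ≠ 0 → Laplacian.laplacian z x = -f x) :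
    IsDiv (fun i x => W x * ∑ j, nh z i j x * lg w j x)
      (fun x => W x * ((∑ i, ∑ j, nh z i j x * nh w i j x) +
        (∑ i, (l i x - lg z i x - lg w i x) * ∑ j, nh z i j x * lg w j x) -
        ∑ i, pd f i x / z x * lg w i x)) := by
  have hVc : ∀ i, C0 fun x => ∑ j, nh z i j x * lg w j x := fun i x hx =>
    tendsto_finsetSum _ fun j _ => (hz.nh_c0 i j x hx).mul ((hw.lg_c1 j).c0 x hx)
  refine ⟨fun i x hx => (hW.c0 x hx).mul (hVc i x hx), fun x hx => (hW.c0 x hx).mul
    (((?_ : ContinuousAt _ x).add ?_).sub ?_), fun η K hη hK hK0 h0 => ?_⟩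
  · exact tendsto_finsetSum _ fun i _ => tendsto_finsetSum _ fun j _ =>
      (hz.nh_c0 i j x hx).mul (hw.nh_c0 i j x hx)
  · exact tendsto_finsetSum _ fun i _ => (((hl i x hx).sub ((hz.lg_c1 i).c0 x hx)).sub
      ((hw.lg_c1 i).c0 x hx)).mul (hVc i x hx)
  · exact tendsto_finsetSum _ fun i _ =>
      ((hf.pd_c0 i x hx).div (hz.c1.c0 x hx) (hz.ne hx)).mul ((hw.lg_c1 i).c0 x hx)
  set g : Fin n → E n → ℝ := fun i x => η x * (W x / z x * lg w i x)
  have hgf : ∀ i, C1 fun x => W x / z x * lg w i x := fun i x hx =>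
    ((hW x hx).div (hz.c1 x hx) (hz.ne hx)).mul (hw.lg_c1 i x hx)
  have hg : ∀ i, ContDiff ℝ 1 (g i) := fun i => C1.lift hK hK0 hη h0 (hgf i)
  have hg0 : ∀ i x, x ∉ K → g i x = 0 := fun i x hx => by simp [g, h0 x hx]
  have key := hess_ibp hK hK0 (fun x hx => (hz x hx).1) hf hlap hg hg0
  have e : ∀ x, (∑ i, ∑ j, pd (g i) j x * pd (fun y => pd z j y) i x) - ∑ i, g i x * pd f i x =
      η x * (W x * ((∑ i, ∑ j, nh z i j x * nh w i j x) +
        (∑ i, (l i x - lg z i x - lg w i x) * ∑ j, nh z i j x * lg w j x) -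
        ∑ i, pd f i x / z x * lg w i x)) + ∑ i, pd η i x * (W x * ∑ j, nh z i j x * lg w j x) := by
    intro x
    by_cases hxK : x ∈ K
    swap
    · simp [hg0 _ x hxK, pd_out hK.isClosed (hg0 _) _ hxK, h0 x hxK, pd_out hK.isClosed h0 _ hxK]
    have hx : x ≠ 0 := fun e => hK0 (e ▸ hxK)
    have hd : ∀ {F : E n → ℝ}, C1 F → DifferentiableAt ℝ F x := fun hF => (hF x hx).differentiableAt one_ne_zero
    have e1 : ∀ i j, pd (g i) j x * pd (fun y => pd z j y) i x =
        η x * (W x * (nh z j i x * nh w j i x)) +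
        η x * (W x * ((l j x - lg z j x - lg w j x) * (nh z j i x * lg w i x))) +
        pd η j x * (W x * (nh z j i x * lg w i x)) := fun i j => by
      rw [show g i = fun y => η y * (W y / z y * lg w i y) from rfl,
        pd_mul (hη.differentiable one_ne_zero x) (hd (hgf i)),
        pd_mul (f := fun y => W y / z y) (((hW x hx).div (hz.c1 x hx) (hz.ne hx)).differentiableAt one_ne_zero) (hd (hw.lg_c1 i)),
        pd_div (hd hW) (hd hz.c1) (hz.ne hx), pd_lg hw j i hx, hWl j x hx,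
        show pd (fun y => pd z j y) i x = nh z j i x * z x by
          rw [nh, div_mul_cancel₀ _ (hz.ne hx)]; exact hs_symm hz i j hx]
      simp only [lg]
      field_simp [hz.ne hx, hw.ne hx]
      ring
    have e2 : ∀ i, g i x * pd f i x = η x * (W x * (pd f i x / z x * lg w i x)) := fun i => by
      simp only [g]; ring
    simp only [e1, e2]
    rw [sum_comm]
    simp only [sum_add_distrib, mul_sum, mul_add, mul_sub]
    ring
  have i1 : Integrable fun x => η x * (W x * ((∑ i, ∑ j, nh z i j x * nh w i j x) +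
        (∑ i, (l i x - lg z i x - lg w i x) * ∑ j, nh z i j x * lg w j x) -
        ∑ i, pd f i x / z x * lg w i x)) := by
    refine C0.integrable hK hK0 hη.continuous h0 fun x hx => (hW.c0 x hx).mul
      (((?_ : ContinuousAt _ x).add ?_).sub ?_)
    · exact tendsto_finsetSum _ fun i _ => tendsto_finsetSum _ fun j _ =>
        (hz.nh_c0 i j x hx).mul (hw.nh_c0 i j x hx)
    · exact tendsto_finsetSum _ fun i _ => (((hl i x hx).sub ((hz.lg_c1 i).c0 x hx)).sub
        ((hw.lg_c1 i).c0 x hx)).mul (hVc i x hx)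
    · exact tendsto_finsetSum _ fun i _ =>
        ((hf.pd_c0 i x hx).div (hz.c1.c0 x hx) (hz.ne hx)).mul ((hw.lg_c1 i).c0 x hx)
  have i2 : Integrable fun x => ∑ i, pd η i x * (W x * ∑ j, nh z i j x * lg w j x) :=
    integrable_finsetSum _ fun i _ => C0.integrable hK hK0 (continuous_pd hη i)
      (fun x hx => pd_out hK.isClosed h0 i hx) fun x hx => (hW.c0 x hx).mul (hVc i x hx)
  have i3 : Integrable fun x => ∑ i, g i x * pd f i x :=
    integrable_finsetSum _ fun i _ => (hf.pd_c0 i).integrable hK hK0 (hg i).continuous (hg0 i)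
  have i4 : Integrable fun x => ∑ i, ∑ j, pd (g i) j x * pd (fun y => pd z j y) i x :=
    integrable_finsetSum _ fun i _ => integrable_finsetSum _ fun j _ =>
      ((hz.pd_c1 j).pd_c0 i).integrable hK hK0 (continuous_pd (hg i) j)
        fun x hx => pd_out hK.isClosed (hg0 i) j hx
  have h := integral_sub i4 i3
  simp only [e] at h
  rw [integral_add i1 i2, key, sub_self] at h
  linarith

end Vale.Agent.P100I
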