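import Vale.Agent.P100I.Identity
import Vale.Agent.P100I.Bounds

/-!
# P100, integral-identity route: a certificate excludes positive entire solutions

`liouville`: for `n ≥ 5` a certificate for `(p,q)` excludes every positive entire solution of
`-Δu = v^p`, `-Δv = u^q` (continuous, `C²` off the origin; no boundedness).
-/

noncomputable section

namespace Vale.Agent.P100I

open Filter Topology Set MeasureTheory Finset Vale.Agent.P100H

variable {n : ℕ}

/-- the weight is dominated by the size -/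
theorem weight_le {ea eb p q U V : ℝ} (ha : 0 ≤ ea) (hb : 0 ≤ eb) (hω : 0 < ea + eb) (hU : 0 < U) (hV : 0 < V) :
    (U ^ (eb * q - ea) * V ^ (ea * p - eb)) ^ (4 / (2 * (ea + eb))) ≤ (V ^ p / U) ^ 2 + (U ^ q / V) ^ 2 := by
  set P := V ^ p / U
  set Q := U ^ q / V
  have hP : 0 < P := div_pos (Real.rpow_pos_of_pos hV _) hU
  have hQ : 0 < Q := div_pos (Real.rpow_pos_of_pos hU _) hV
  have e : U ^ (eb * q - ea) * V ^ (ea * p - eb) = (P ^ 2) ^ (ea / 2) * (Q ^ 2) ^ (eb / 2) := by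
    rw [← Real.rpow_natCast P 2, ← Real.rpow_natCast Q 2, ← Real.rpow_mul hP.le, ← Real.rpow_mul hQ.le,
      show ((2:ℕ):ℝ) * (ea / 2) = ea by push_cast; ring, show ((2:ℕ):ℝ) * (eb / 2) = eb by push_cast; ring,
      Real.rpow_sub hU, Real.rpow_sub hV, Real.div_rpow (by positivity) hU.le, Real.div_rpow (by positivity) hV.le,
      ← Real.rpow_mul hV.le, ← Real.rpow_mul hU.le, mul_comm eb q, mul_comm ea p]
    field_simp
  have hle : (P ^ 2) ^ (ea / 2) * (Q ^ 2) ^ (eb / 2) ≤ (P ^ 2 + Q ^ 2) ^ ((ea + eb) / 2) := by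
    rw [show (ea + eb) / 2 = ea / 2 + eb / 2 by ring, Real.rpow_add (by positivity)]
    gcongr <;> nlinarith [sq_nonneg P, sq_nonneg Q]
  rw [e]
  refine (Real.rpow_le_rpow (by positivity) hle (by positivity)).trans_eq ?_
  rw [← Real.rpow_mul (by positivity), show (ea + eb) / 2 * (4 / (2 * (ea + eb))) = 1 by field_simp; ring, Real.rpow_one]

theorem pd_pow {f : E n → ℝ} {x : E n} (hf : DifferentiableAt ℝ f x) (m : ℕ) (i : Fin n) :
    pd (fun y => f y ^ m) i x = m * f x ^ (m - 1) * pd f i x := by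
  rw [pd, (hf.hasFDerivAt.pow m).fderiv]
  simp [pd]

theorem c0_wt {p q lam mu : ℝ} {u v : E n → ℝ} (h : Sys p q u v) : C0 (wt lam mu u v) :=
  (wt_data h lam mu).1.c0

theorem c0_size {p q : ℝ} {u v : E n → ℝ} (h : Sys p q u v) : C0 fun x => (jet p q u v x).size := by
  intro x hx
  have hfr : ∀ {z : E n → ℝ}, C2p z → ContinuousAt (fun x => ∑ i, ∑ j, nh z i j x * nh z i j x) x := fun hz =>
    tendsto_finsetSum _ fun i _ => tendsto_finsetSum _ fun j _ => (hz.nh_c0 i j x hx).mul (hz.nh_c0 i j x hx)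
  exact (((((((c1_dot h.cu h.cu).c0 x hx).pow 2).add (((c1_dot h.cv h.cv).c0 x hx).pow 2)).add
    (((c1_ratio h.cu h.cv p).c0 x hx).pow 2)).add (((c1_ratio h.cv h.cu q).c0 x hx).pow 2)).add (hfr h.cu)).add
      (hfr h.cv)

theorem volume_ball (r : ℝ) (hr : 0 ≤ r) :
    (volume : Measure (E n)).real (Metric.closedBall 0 r) =
      r ^ n * (volume : Measure (E n)).real (Metric.ball 0 1) := by
  rw [Measure.addHaar_real_closedBall _ _ hr]
  simp

theorem pq_le_size (J : Jet n) : J.P ^ 2 + J.Q ^ 2 ≤ J.size := by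
  have := frob_self_nonneg J.U
  have := frob_self_nonneg J.V
  unfold Jet.size
  linarith [sq_nonneg (dot J.a J.a), sq_nonneg (dot J.b J.b)]

/-- the flux against the cutoff, pointwise -/
theorem pointwise {p q lam mu ω δ L Wm ε R : ℝ} {u v : E n → ℝ} {c : Fin 14 → ℝ} {M : ℕ} {x : E n}
    (hω : 0 < ω) (hM : ω + 4 ≤ 4 * (M : ℝ)) (hM1 : 1 ≤ M) (hδ : 0 < δ) (hL : 0 ≤ L) (hε : 0 < ε)
    (hR : 0 < R) (hW0 : 0 < wt lam mu u v x)
    (hgr : ∑ i, pd (cut ε R) i x ^ 2 ≤
      if ‖x‖ ≤ 2 * ε then (L / ε) ^ 2 else if ‖x‖ ≤ 2 * R then (L / R) ^ 2 else 0)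
    (hWm : ‖x‖ ≤ 2 * ε → wt lam mu u v x ≤ Wm) (hWm0 : 0 ≤ Wm)
    (hWN : wt lam mu u v x ^ (4 / ω) ≤ (jet p q u v x).size) :
    let K1 := 4 * csum c * (6 * csum c / δ) ^ 3 * (M : ℝ) ^ 4
    let e := δ / (4 * (K1 + 1));
    -(∑ i, pd (fun y => cut ε R y ^ (4 * M)) i x * (wt lam mu u v x * (jet p q u v x).fld c i)) ≤
      3 * δ / 4 * (cut ε R x ^ (4 * M) * (wt lam mu u v x * (jet p q u v x).size)) +
        ((Metric.closedBall (0 : E n) (2 * ε)).indicator (fun _ => K1 * Wm * L ^ 4 / ε ^ 4) x +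
          (Metric.closedBall (0 : E n) (2 * R)).indicator
            (fun _ => K1 * ((e⁻¹) ^ (ω / 4) * L ^ (ω + 4)) / R ^ (ω + 4)) x) := by
  intro K1 e
  have hS : 0 ≤ csum c := by unfold csum; positivity
  have hK1 : 0 ≤ K1 := by positivity
  have he : 0 < e := by positivity
  have hKe : K1 * e ≤ δ / 4 := by
    rw [show K1 * e = δ / 4 * (K1 / (K1 + 1)) by simp only [e]; field_simp]
    exact mul_le_of_le_one_right (by positivity) ((div_le_one (by positivity)).2 (le_add_of_nonneg_right zero_le_one))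
  set J := jet p q u v x
  set W := wt lam mu u v x
  set φ := cut ε R x
  have hφ0 : 0 ≤ φ := cut_nonneg _ _ _
  set d : Fin n → ℝ := fun i => (M : ℝ) * φ ^ (M - 1) * pd (cut ε R) i x
  set G := √(∑ i, pd (cut ε R) i x ^ 2)
  have hG : 0 ≤ G := Real.sqrt_nonneg _
  have e1 : ∑ i, pd (fun y => cut ε R y ^ (4 * M)) i x * (W * J.fld c i) =
      W * (4 * (φ ^ M) ^ 3 * dot d (J.fld c)) := by
    simp only [dot, mul_sum]
    refine sum_congr rfl fun i _ => ?_
    rw [pd_pow (((contDiff_cut ε R).differentiable one_ne_zero) x) (4 * M) i]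
    simp only [d]
    rw [show cut ε R x ^ (4 * M - 1) = (φ ^ M) ^ 3 * φ ^ (M - 1) by rw [← pow_mul, ← pow_add]; congr 1; omega]
    push_cast
    ring
  have es : √(dot d d) = (M : ℝ) * φ ^ (M - 1) * G := by
    have : dot d d = ((M : ℝ) * φ ^ (M - 1)) ^ 2 * ∑ i, pd (cut ε R) i x ^ 2 := by
      rw [dot, mul_sum]; exact sum_congr rfl fun i _ => by simp only [d]; ring
    rw [this, Real.sqrt_mul (sq_nonneg _), Real.sqrt_sq (by positivity)]
  have hfl := abs_flux_le J c d (dot_fld J c d)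
  rw [es] at hfl
  have hN := size_nonneg J
  have hm4 : √(√J.size) ^ 4 = J.size := by
    rw [show 4 = 2 * 2 by norm_num, pow_mul, Real.sq_sqrt (Real.sqrt_nonneg _), Real.sq_sqrt hN]
  have h3 : -(4 * (φ ^ M) ^ 3 * dot d (J.fld c)) ≤
      δ / 2 * (φ ^ (4 * M) * J.size) + K1 * (φ ^ (4 * M - 4) * G ^ 4) := by
    calc -(4 * (φ ^ M) ^ 3 * dot d (J.fld c)) ≤ 4 * (φ ^ M) ^ 3 * |dot d (J.fld c)| := by
          rw [← mul_neg]; exact mul_le_mul_of_nonneg_left (neg_le_abs _) (by positivity)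
      _ ≤ 4 * (φ ^ M) ^ 3 * (csum c * (√(√J.size) ^ 3 * ((M : ℝ) * φ ^ (M - 1) * G))) :=
          mul_le_mul_of_nonneg_left hfl (by positivity)
      _ ≤ _ := (absorb hδ hS).trans_eq (by
          rw [hm4, show (φ ^ M) ^ 4 = φ ^ (4 * M) by rw [← pow_mul, mul_comm],
            show ((M : ℝ) * φ ^ (M - 1) * G) ^ 4 = (M : ℝ) ^ 4 * φ ^ (4 * M - 4) * G ^ 4 by
              rw [mul_pow, mul_pow, ← pow_mul, show (M - 1) * 4 = 4 * M - 4 by omega]]
          simp only [K1]
          ring)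
  have hpos : 0 ≤ φ ^ (4 * M) * (W * J.size) := mul_nonneg (pow_nonneg hφ0 _) (mul_nonneg hW0.le hN)
  have hgR0 : ∀ r C' : ℝ, 0 ≤ C' → 0 ≤ (Metric.closedBall (0 : E n) r).indicator (fun _ => C') x :=
    fun r C' hC => indicator_nonneg (fun _ _ => hC) x
  have key : W * (K1 * (φ ^ (4 * M - 4) * G ^ 4)) ≤ δ / 4 * (φ ^ (4 * M) * (W * J.size)) +
      ((Metric.closedBall (0 : E n) (2 * ε)).indicator (fun _ => K1 * Wm * L ^ 4 / ε ^ 4) x +
        (Metric.closedBall (0 : E n) (2 * R)).indicator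
          (fun _ => K1 * ((e⁻¹) ^ (ω / 4) * L ^ (ω + 4)) / R ^ (ω + 4)) x) := by
    have p1 : 0 ≤ δ / 4 * (φ ^ (4 * M) * (W * J.size)) := mul_nonneg (by positivity) hpos
    have p2 : 0 ≤ K1 * Wm * L ^ 4 / ε ^ 4 := by positivity
    have p3 : 0 ≤ K1 * ((e⁻¹) ^ (ω / 4) * L ^ (ω + 4)) / R ^ (ω + 4) := by positivity
    by_cases hxε : ‖x‖ ≤ 2 * ε
    · rw [if_pos hxε] at hgr
      have hGe : G ≤ L / ε := (Real.sqrt_le_sqrt hgr).trans_eq (Real.sqrt_sq (by positivity))
      have hgin : (Metric.closedBall (0 : E n) (2 * ε)).indicator (fun _ => K1 * Wm * L ^ 4 / ε ^ 4) x =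
          K1 * Wm * L ^ 4 / ε ^ 4 := indicator_of_mem (mem_closedBall_zero_iff.2 hxε) _
      rw [hgin]
      refine (mul_le_mul (hWm hxε) (mul_le_mul_of_nonneg_left (mul_le_mul (pow_le_one₀ hφ0 (cut_le_one _ _ _))
        (pow_le_pow_left₀ hG hGe 4) (by positivity) zero_le_one) hK1) (by positivity) hWm0).trans ?_
      refine le_trans (le_of_eq ?_) ((le_add_of_nonneg_right (hgR0 _ _ p3)).trans (le_add_of_nonneg_left p1))
      ring
    rw [if_neg hxε] at hgr
    by_cases hxR : ‖x‖ ≤ 2 * R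
    · rw [if_pos hxR] at hgr
      have hGR : G ≤ L / R := (Real.sqrt_le_sqrt hgr).trans_eq (Real.sqrt_sq (by positivity))
      have hgR : (Metric.closedBall (0 : E n) (2 * R)).indicator
          (fun _ => K1 * ((e⁻¹) ^ (ω / 4) * L ^ (ω + 4)) / R ^ (ω + 4)) x =
          K1 * ((e⁻¹) ^ (ω / 4) * L ^ (ω + 4)) / R ^ (ω + 4) := indicator_of_mem (mem_closedBall_zero_iff.2 hxR) _
      rw [hgR]
      have h4 := mul_le_mul_of_nonneg_left
        (outer_young hω he hφ0 (cut_le_one _ _ _) hG hW0.le hWN hM) hK1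
      have h5 : K1 * ((e⁻¹) ^ (ω / 4) * G ^ (ω + 4)) ≤ K1 * ((e⁻¹) ^ (ω / 4) * L ^ (ω + 4)) / R ^ (ω + 4) := by
        refine (mul_le_mul_of_nonneg_left (mul_le_mul_of_nonneg_left
          (Real.rpow_le_rpow hG hGR (by positivity)) (by positivity)) hK1).trans_eq ?_
        rw [Real.div_rpow hL hR.le]
        ring
      have h6 : K1 * (e * (φ ^ (4 * M) * (W * J.size))) ≤ δ / 4 * (φ ^ (4 * M) * (W * J.size)) := by
        rw [← mul_assoc]; exact mul_le_mul_of_nonneg_right hKe hpos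
      calc W * (K1 * (φ ^ (4 * M - 4) * G ^ 4)) = K1 * (φ ^ (4 * M - 4) * G ^ 4 * W) := by ring
        _ ≤ _ := h4
        _ = K1 * (e * (φ ^ (4 * M) * (W * J.size))) + K1 * ((e⁻¹) ^ (ω / 4) * G ^ (ω + 4)) := mul_add _ _ _
        _ ≤ _ := add_le_add h6 (h5.trans (le_add_of_nonneg_left (hgR0 _ _ p2)))
    · rw [if_neg hxR] at hgr
      have hG0 : G = 0 := Real.sqrt_eq_zero'.2 hgr
      rw [hG0, zero_pow (show (4:ℕ) ≠ 0 by norm_num), mul_zero, mul_zero, mul_zero]
      exact add_nonneg p1 (add_nonneg (hgR0 _ _ p2) (hgR0 _ _ p3))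
  rw [e1, ← mul_neg]
  refine (mul_le_mul_of_nonneg_left h3 hW0.le).trans ?_
  have e2 : W * (δ / 2 * (φ ^ (4 * M) * J.size)) = δ / 2 * (φ ^ (4 * M) * (W * J.size)) := by ring
  rw [mul_add, e2]
  calc _ ≤ δ / 2 * (φ ^ (4 * M) * (W * J.size)) + _ := add_le_add le_rfl key
    _ = _ := by ring

/-- the integral estimate -/
theorem estimate (hn : 5 ≤ n) {p q : ℝ} (C : Cert n p q) {u v : E n → ℝ} (hs : Sys p q u v)
    (huc : Continuous u) (hvc : Continuous v) (hu : ∀ x, 0 < u x) (hv : ∀ x, 0 < v x) :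
    ∃ K : ℝ, ∀ ε : ℝ, 0 < ε → ε ≤ 1 / 4 →
      ∫ x, cut ε ε⁻¹ x ^ (4 * ⌈2 * (C.ea + C.eb) + 4⌉₊) *
          (wt (C.eb * q - C.ea) (C.ea * p - C.eb) u v x * (jet p q u v x).size) ≤
        K * (ε ^ ((n : ℝ) - 4) + ε ^ (2 * (C.ea + C.eb) + 4 - n)) := by
  set lam := C.eb * q - C.ea
  set mu := C.ea * p - C.eb
  set ω := 2 * (C.ea + C.eb) with hωdef
  set M := ⌈ω + 4⌉₊
  have hn5 : (5:ℝ) ≤ n := by exact_mod_cast hn
  have hω : 0 < ω := by linarith [C.adm]
  have hM : ω + 4 ≤ 4 * (M : ℝ) := by linarith [Nat.le_ceil (ω + 4), (Nat.cast_nonneg M : (0:ℝ) ≤ M)]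
  have hM1 : 1 ≤ M := by
    rcases Nat.eq_zero_or_pos M with h | h
    · rw [h] at hM; simp at hM; linarith
    · exact h
  obtain ⟨L, hL, hgrad⟩ := grad_cut (n := n)
  have hWc : Continuous (wt lam mu u v) :=
    (huc.rpow_const fun x => Or.inl (hu x).ne').mul (hvc.rpow_const fun x => Or.inl (hv x).ne')
  obtain ⟨Wm, hWm⟩ := (isCompact_closedBall (0 : E n) 1).exists_bound_of_continuousOn hWc.continuousOn
  have hW0 : ∀ x, 0 < wt lam mu u v x := fun x =>
    mul_pos (Real.rpow_pos_of_pos (hu x) _) (Real.rpow_pos_of_pos (hv x) _)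
  have hWm0 : 0 ≤ Wm := (norm_nonneg _).trans (hWm 0 (Metric.mem_closedBall_self zero_le_one))
  set δ := C.δ
  have hδ : 0 < δ := C.δ_pos
  have hS : 0 ≤ csum C.c := by unfold csum; positivity
  set K1 := 4 * csum C.c * (6 * csum C.c / δ) ^ 3 * (M : ℝ) ^ 4
  have hK1 : 0 ≤ K1 := by positivity
  set e := δ / (4 * (K1 + 1))
  have he : 0 < e := by positivity
  have hKe : K1 * e ≤ δ / 4 := by
    rw [show K1 * e = δ / 4 * (K1 / (K1 + 1)) by simp only [e]; field_simp]
    exact mul_le_of_le_one_right (by positivity) ((div_le_one (by positivity)).2 (by linarith))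
  set vol1 := (volume : Measure (E n)).real (Metric.ball 0 1)
  have hvol1 : 0 ≤ vol1 := measureReal_nonneg
  set cin := K1 * Wm * L ^ 4
  set cout := K1 * ((e⁻¹) ^ (ω / 4) * L ^ (ω + 4))
  refine ⟨4 / δ * ((cin + cout) * (2 ^ n * vol1)), fun ε hε hε4 => ?_⟩
  set R := ε⁻¹
  have hR4 : 4 ≤ R := by rw [le_inv_comm₀ (by norm_num) hε]; linarith
  have hR0 : 0 < R := by linarith
  set φ : E n → ℝ := cut ε R
  set η : E n → ℝ := fun x => φ x ^ (4 * M)
  set N : E n → ℝ := fun x => (jet p q u v x).size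
  set W := wt lam mu u v
  have hφd : ∀ x, DifferentiableAt ℝ φ x := fun x => ((contDiff_cut ε R).differentiable one_ne_zero) x
  have hη : ContDiff ℝ 1 η := (contDiff_cut ε R).pow _
  set K : Set (E n) := {x | ε ≤ ‖x‖ ∧ ‖x‖ ≤ 2 * R}
  have hKc : IsCompact K := (isCompact_closedBall (0 : E n) (2 * R)).of_isClosed_subset
    ((isClosed_le continuous_const continuous_norm).inter (isClosed_le continuous_norm continuous_const))
    fun x hx => mem_closedBall_zero_iff.2 hx.2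
  have hK0 : (0 : E n) ∉ K := fun h => by have := h.1; simp at this; linarith
  have hη0 : ∀ x, x ∉ K → η x = 0 := fun x hx => by
    simp only [η, φ]
    rw [cut_out hε hR0 (by
      by_contra h; push Not at h; exact hx ⟨h.1.le, h.2.le⟩), zero_pow (by omega)]
  obtain ⟨hVc, hDc, hid⟩ := hs.identity lam mu C.c
  have hi := hid η K hη hKc hK0 hη0
  have iN : Integrable fun x => η x * (W x * N x) :=
    C0.integrable hKc hK0 hη.continuous hη0 fun x hx => ((c0_wt hs) x hx).mul (c0_size hs x hx)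
  have iD := C0.integrable hKc hK0 hη.continuous hη0 hDc
  have iF : Integrable fun x => ∑ i, pd η i x * (W x * (jet p q u v x).fld C.c i) :=
    integrable_finsetSum _ fun i _ =>
      C0.integrable hKc hK0 (continuous_pd hη i) (fun x hx => pd_out hKc.isClosed hη0 i hx) (hVc i)
  have h1 : δ * ∫ x, η x * (W x * N x) ≤ -∫ x, ∑ i, pd η i x * (W x * (jet p q u v x).fld C.c i) := by
    rw [← hi, ← integral_const_mul]
    refine integral_mono (iN.const_mul δ) iD fun x => ?_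
    by_cases hx : x ∈ K
    · have hx0 : x ≠ 0 := fun h => hK0 (h ▸ hx)
      calc δ * (η x * (W x * N x)) = η x * (W x * (δ * N x)) := by ring
        _ ≤ _ := mul_le_mul_of_nonneg_left (mul_le_mul_of_nonneg_left (C.pos _ (hs.ok hx0)) (hW0 x).le)
            (pow_nonneg (cut_nonneg _ _ _) _)
    · simp [hη0 x hx]
  set g : E n → ℝ := fun x => (Metric.closedBall (0 : E n) (2 * ε)).indicator (fun _ => cin / ε ^ 4) x +
    (Metric.closedBall (0 : E n) (2 * R)).indicator (fun _ => cout / R ^ (ω + 4)) x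
  have ig : ∀ r c : ℝ, Integrable ((Metric.closedBall (0 : E n) r).indicator fun _ => c) := fun r c =>
    (integrable_indicator_iff measurableSet_closedBall).2
      (integrableOn_const (isCompact_closedBall _ _).measure_ne_top)
  have h2 : ∀ x, -(∑ i, pd η i x * (W x * (jet p q u v x).fld C.c i)) ≤
      3 * δ / 4 * (η x * (W x * N x)) + g x := fun x =>
    pointwise hω hM hM1 hδ hL hε hR0 (hW0 x) (hgrad hε hε4 hR4 x)
      (fun hx => (le_abs_self _).trans (hWm x (mem_closedBall_zero_iff.2 (hx.trans (by linarith only [hε4])))))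
      hWm0 ((weight_le C.ea_nonneg C.eb_nonneg (by linarith only [hω, hωdef]) (hu x) (hv x)).trans
        (pq_le_size (jet p q u v x)))
  have h3 : -∫ x, ∑ i, pd η i x * (W x * (jet p q u v x).fld C.c i) ≤
      3 * δ / 4 * (∫ x, η x * (W x * N x)) + ∫ x, g x := by
    rw [← integral_neg, ← integral_const_mul, ← integral_add (iN.const_mul _) ((ig _ _).fun_add (ig _ _))]
    exact integral_mono iF.neg ((iN.const_mul _).add ((ig _ _).fun_add (ig _ _))) h2
  have h4 : ∫ x, g x ≤ (cin + cout) * (2 ^ n * vol1) * (ε ^ ((n : ℝ) - 4) + ε ^ (ω + 4 - n)) := by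
    have hv' : ∀ r c : ℝ, 0 ≤ r →
        ∫ x, (Metric.closedBall (0 : E n) r).indicator (fun _ => c) x = r ^ n * vol1 * c := fun r c hr => by
      rw [integral_indicator_const _ measurableSet_closedBall, volume_ball r hr, smul_eq_mul]
    rw [integral_add (ig _ _) (ig _ _), hv' _ _ (by positivity), hv' _ _ (by positivity)]
    have a1 : ε ^ n / ε ^ 4 = ε ^ ((n : ℝ) - 4) := by
      rw [Real.rpow_sub hε, Real.rpow_natCast, show (4:ℝ) = ((4:ℕ):ℝ) by norm_num, Real.rpow_natCast]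
    have a2 : R ^ n / R ^ (ω + 4) = ε ^ (ω + 4 - n) := by
      rw [← Real.rpow_natCast R n, ← Real.rpow_sub hR0, Real.inv_rpow hε.le, ← Real.rpow_neg hε.le, neg_sub]
    have h5 : (2 * ε) ^ n * vol1 * (cin / ε ^ 4) = cin * (2 ^ n * vol1) * ε ^ ((n : ℝ) - 4) := by
      rw [← a1, mul_pow]; ring
    have h6 : (2 * R) ^ n * vol1 * (cout / R ^ (ω + 4)) = cout * (2 ^ n * vol1) * ε ^ (ω + 4 - n) := by
      rw [← a2, mul_pow]; ring
    rw [h5, h6]
    have : 0 ≤ cin := by positivity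
    have : 0 ≤ cout := by positivity
    have : 0 ≤ 2 ^ n * vol1 := by positivity
    have := Real.rpow_nonneg hε.le ((n : ℝ) - 4)
    have := Real.rpow_nonneg hε.le (ω + 4 - n)
    nlinarith [mul_nonneg (mul_nonneg ‹0 ≤ cin› ‹0 ≤ 2 ^ n * vol1›) (Real.rpow_nonneg hε.le (ω + 4 - n)),
      mul_nonneg (mul_nonneg ‹0 ≤ cout› ‹0 ≤ 2 ^ n * vol1›) (Real.rpow_nonneg hε.le ((n : ℝ) - 4))]
  have h5 : δ / 4 * (∫ x, η x * (W x * N x)) ≤
      (cin + cout) * (2 ^ n * vol1) * (ε ^ ((n : ℝ) - 4) + ε ^ (ω + 4 - n)) := by linarith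
  calc (∫ x, η x * (W x * N x)) = 4 / δ * (δ / 4 * ∫ x, η x * (W x * N x)) := by field_simp
    _ ≤ 4 / δ * ((cin + cout) * (2 ^ n * vol1) * (ε ^ ((n : ℝ) - 4) + ε ^ (ω + 4 - n))) :=
        mul_le_mul_of_nonneg_left h5 (by positivity)
    _ = _ := by ring

/-- **a certificate excludes entire solutions** -/
theorem liouville (hn : 5 ≤ n) {p q : ℝ} (C : Cert n p q) :
    ¬ ∃ u v : E n → ℝ, Continuous u ∧ Continuous v ∧ ContDiffOn ℝ 2 u {0}ᶜ ∧ ContDiffOn ℝ 2 v {0}ᶜ ∧
      (∀ x, 0 < u x) ∧ (∀ x, 0 < v x) ∧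
      (∀ x, x ≠ 0 → -Laplacian.laplacian u x = v x ^ p) ∧
      (∀ x, x ≠ 0 → -Laplacian.laplacian v x = u x ^ q) := by
  rintro ⟨u, v, huc, hvc, hu2, hv2, hu, hv, he, he'⟩
  have hs : Sys p q u v :=
    ⟨fun x hx => ⟨hu2.contDiffAt (isOpen_compl_singleton.mem_nhds hx), hu x⟩,
      fun x hx => ⟨hv2.contDiffAt (isOpen_compl_singleton.mem_nhds hx), hv x⟩,
      fun x hx => by linarith [he x hx], fun x hx => by linarith [he' x hx]⟩
  obtain ⟨K, hK⟩ := estimate hn C hs huc hvc hu hv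
  set lam := C.eb * q - C.ea
  set mu := C.ea * p - C.eb
  set ω := 2 * (C.ea + C.eb)
  set F : E n → ℝ := fun x => wt lam mu u v x * (jet p q u v x).size
  obtain ⟨x₀, hx₀⟩ := exists_norm_eq' (n := n) (by omega) (r := 1) zero_le_one
  set B := Metric.closedBall x₀ (1 / 4)
  have hB : ∀ x ∈ B, 3 / 4 ≤ ‖x‖ ∧ ‖x‖ ≤ 5 / 4 := fun x hx => by
    rw [Metric.mem_closedBall, dist_eq_norm] at hx
    have h1 := norm_sub_norm_le x₀ x
    have h2 := norm_sub_norm_le x x₀
    rw [norm_sub_rev] at h1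
    constructor <;> linarith
  have hB0 : ∀ x ∈ B, x ≠ 0 := fun x hx h => by have := (hB x hx).1; simp [h] at this; linarith
  have hFc : C0 F := fun x hx => ((c0_wt hs) x hx).mul (c0_size hs x hx)
  obtain ⟨xm, hxm, hmin⟩ := (isCompact_closedBall x₀ (1 / 4)).exists_isMinOn
    ⟨x₀, Metric.mem_closedBall_self (by norm_num)⟩ fun x hx => (hFc x (hB0 x hx)).continuousWithinAt
  have hm : 0 < F xm := mul_pos (mul_pos (Real.rpow_pos_of_pos (hu xm) _) (Real.rpow_pos_of_pos (hv xm) _))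
    (size_pos (hs.ok (hB0 xm hxm)))
  have hvolB : 0 < (volume : Measure (E n)).real B :=
    ENNReal.toReal_pos (Metric.measure_closedBall_pos _ _ (by norm_num)).ne' (isCompact_closedBall _ _).measure_ne_top
  have hlow : ∀ ε : ℝ, 0 < ε → ε ≤ 1 / 4 →
      F xm * (volume : Measure (E n)).real B ≤ K * (ε ^ ((n : ℝ) - 4) + ε ^ (ω + 4 - n)) := fun ε hε hε4 => by
    refine le_trans ?_ (hK ε hε hε4)
    have hR4 : 4 ≤ ε⁻¹ := by rw [le_inv_comm₀ (by norm_num) hε]; linarith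
    set K0 : Set (E n) := {x | ε ≤ ‖x‖ ∧ ‖x‖ ≤ 2 * ε⁻¹}
    have hKc : IsCompact K0 := (isCompact_closedBall (0 : E n) (2 * ε⁻¹)).of_isClosed_subset
      ((isClosed_le continuous_const continuous_norm).inter (isClosed_le continuous_norm continuous_const))
      fun x hx => mem_closedBall_zero_iff.2 hx.2
    have hK00 : (0 : E n) ∉ K0 := fun h => by have := h.1; simp at this; linarith
    have hi : Integrable fun x => cut ε ε⁻¹ x ^ (4 * ⌈ω + 4⌉₊) * F x := by
      refine C0.integrable hKc hK00 ((contDiff_cut ε ε⁻¹).continuous.pow _) (fun x hx => ?_) hFc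
      rw [cut_out hε (by linarith) (by by_contra h; push Not at h; exact hx ⟨h.1.le, h.2.le⟩),
        zero_pow]
      have : 0 < ⌈ω + 4⌉₊ := Nat.ceil_pos.2 (by linarith [C.ea_nonneg, C.eb_nonneg])
      omega
    calc F xm * (volume : Measure (E n)).real B = ∫ x, B.indicator (fun _ => F xm) x := by
          rw [integral_indicator_const _ measurableSet_closedBall, smul_eq_mul, mul_comm]
      _ ≤ ∫ x, cut ε ε⁻¹ x ^ (4 * ⌈ω + 4⌉₊) * F x := by
          refine integral_mono ((integrable_indicator_iff measurableSet_closedBall).2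
            (integrableOn_const (isCompact_closedBall _ _).measure_ne_top)) hi fun x => ?_
          by_cases hx : x ∈ B
          · rw [indicator_of_mem hx]
            have := hB x hx
            rw [cut_one hε (by linarith) (by linarith) (by linarith), one_pow, one_mul]
            exact hmin hx
          · rw [indicator_of_notMem hx]
            exact mul_nonneg (pow_nonneg (cut_nonneg _ _ _) _)
              (mul_nonneg (mul_nonneg (Real.rpow_nonneg (hu x).le _) (Real.rpow_nonneg (hv x).le _)) (size_nonneg _))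
  have ht : Tendsto (fun ε : ℝ => K * (ε ^ ((n : ℝ) - 4) + ε ^ (ω + 4 - n))) (𝓝[>] 0) (𝓝 0) := by
    have hn5 : (5:ℝ) ≤ n := by exact_mod_cast hn
    have h1 := (Real.continuous_rpow_const (q := (n : ℝ) - 4) (by linarith)).tendsto 0
    have h2 := (Real.continuous_rpow_const (q := ω + 4 - n) (by linarith [C.adm])).tendsto 0
    rw [Real.zero_rpow (by linarith)] at h1
    rw [Real.zero_rpow (by linarith [C.adm])] at h2
    simpa using ((h1.add h2).const_mul K).mono_left nhdsWithin_le_nhds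
  have h0 : F xm * (volume : Measure (E n)).real B ≤ 0 :=
    ge_of_tendsto ht ((Ioc_mem_nhdsGT (by norm_num : (0:ℝ) < 1 / 4)) |> fun h =>
      Filter.eventually_of_mem h fun ε hε => hlow ε hε.1 hε.2)
  linarith [mul_pos hm hvolB]

end Vale.Agent.P100I
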