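import Vale.Agent.P100I.Five
import Vale.Agent.P100I.Liouville
import Vale.Agent.P100E.Cases
import Vale.Agent.P100E.Mean
import Vale.Agent.P100E.Sphere
import Vale.Agent.P100E.Pohozaev

/-!
# P100: Lane-Emden in dimension five up to `α + β ≥ 301/100`

The certificates cover `α, β ≤ 2`; the energy method covers the rest.
-/

noncomputable section

namespace Vale.Agent.P100I

open Vale.Agent.P100H Vale.Agent.P100E

/-- No positive entire solution of the Lane-Emden system in dimension five when `pq ≤ 1` or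
`α + β ≥ 301/100` (the conjecture asks `α + β > 3`). -/
theorem laneEmden_five {p q : ℝ} (hp : 0 < p) (hq : 0 < q)
    (h : 301 / 100 * (p * q - 1) ≤ 2 * (p + q + 2)) :
    ¬ ∃ u v : E 5 → ℝ, Continuous u ∧ Continuous v ∧ ContDiffOn ℝ 2 u {0}ᶜ ∧
      ContDiffOn ℝ 2 v {0}ᶜ ∧ (∀ x, 0 < u x) ∧ (∀ x, 0 < v x) ∧
      (∀ x, x ≠ 0 → -Laplacian.laplacian u x = v x ^ p) ∧
      (∀ x, x ≠ 0 → -Laplacian.laplacian v x = u x ^ q) := by
  by_cases hc : ((5 : ℕ) - 3 : ℝ) * (p * q - 1) < 2 * (max p q + 1)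
  · rintro ⟨u, v, huc, hvc, hu2, hv2, hu, hv, he, he'⟩
    have hsub : ((5 : ℕ) : ℝ) - 2 < (((5 : ℕ) : ℝ) + 0) / (p + 1) + (((5 : ℕ) : ℝ) + 0) / (q + 1) := by
      rw [div_add_div _ _ (show p + 1 ≠ 0 by linarith) (show q + 1 ≠ 0 by linarith),
        lt_div_iff₀ (by positivity)]
      push_cast
      nlinarith
    have e1 : ∀ x : E 5, x ≠ 0 → -Laplacian.laplacian u x = ‖x‖ ^ (0 : ℝ) * v x ^ p := by
      intro x hx; rw [Real.rpow_zero, one_mul]; exact he x hx
    have e2 : ∀ x : E 5, x ≠ 0 → -Laplacian.laplacian v x = ‖x‖ ^ (0 : ℝ) * u x ^ q := by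
      intro x hx; rw [Real.rpow_zero, one_mul]; exact he' x hx
    have h5 : 3 ≤ 5 := by norm_num
    exact false_of_region h5 (pohozaevBound h5) (sphereBound h5 (meanBound h5))
      (by norm_num : (-2 : ℝ) < 0) (by norm_num : (-2 : ℝ) < 0) hp hq hsub hc
      (super_of_eqn huc hu2 hu hv e1) (super_of_eqn hvc hv2 hv hu e2) e1 e2
  · have hc' : 2 * (max p q + 1) ≤ 2 * (p * q - 1) := by
      have := le_of_not_gt hc
      push_cast at this
      linarith
    have h1 := le_max_left p q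
    have h2 := le_max_right p q
    obtain ⟨C⟩ := cert_five hp hq (by linarith) (by linarith) (by linarith) h
    exact liouville le_rfl C

end Vale.Agent.P100I
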