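import Mathlib

/-!
# A positivity test for small rational matrices
-/

namespace Vale.Agent.P100I

open Finset

/-- The symmetrised first row. -/
def firstRow {d : ℕ} (G : Fin (d + 1) → Fin (d + 1) → ℚ) (i : Fin d) : ℚ :=
  (G 0 i.succ + G i.succ 0) / 2

/-- The Schur complement of the first entry. -/
def schur {d : ℕ} (G : Fin (d + 1) → Fin (d + 1) → ℚ) (i j : Fin d) : ℚ :=
  G i.succ j.succ - firstRow G i * firstRow G j / G 0 0

/-- Gaussian elimination with positive pivots. -/
def psd : (d : ℕ) → (Fin d → Fin d → ℚ) → Bool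
  | 0, _ => true
  | d + 1, G => decide (0 < G 0 0) && psd d (schur G)

theorem qf_nonneg_of_psd : ∀ {d : ℕ} (G : Fin d → Fin d → ℚ), psd d G = true →
    ∀ x : Fin d → ℝ, 0 ≤ ∑ i, ∑ j, (G i j : ℝ) * (x i * x j)
  | 0, _, _, x => by simp
  | d + 1, G, h, x => by
    simp only [psd, Bool.and_eq_true, decide_eq_true_eq] at h
    obtain ⟨h0, hS⟩ := h
    have ih := qf_nonneg_of_psd (schur G) hS (fun i => x i.succ)
    set g : ℝ := ((G 0 0 : ℚ) : ℝ) with hg
    have g0 : 0 < g := by rw [hg]; exact_mod_cast h0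
    set t : ℝ := ∑ i : Fin d, (firstRow G i : ℝ) * x i.succ with ht
    have hsq : t * t = ∑ i : Fin d, ∑ j : Fin d,
        (firstRow G i : ℝ) * (firstRow G j : ℝ) * (x i.succ * x j.succ) := by
      rw [ht, Finset.sum_mul_sum]
      exact Finset.sum_congr rfl fun i _ => Finset.sum_congr rfl fun j _ => by ring
    have hrest : ∑ i : Fin d, ∑ j : Fin d, (G i.succ j.succ : ℝ) * (x i.succ * x j.succ) =
        (∑ i : Fin d, ∑ j : Fin d, (schur G i j : ℝ) * (x i.succ * x j.succ)) + t * t / g := by
      rw [hsq, Finset.sum_div, ← Finset.sum_add_distrib]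
      refine Finset.sum_congr rfl fun i _ => ?_
      rw [Finset.sum_div, ← Finset.sum_add_distrib]
      refine Finset.sum_congr rfl fun j _ => ?_
      simp only [schur]
      push_cast
      rw [← hg]
      ring
    have hlin : ∑ i : Fin d, ((G 0 i.succ : ℝ) + (G i.succ 0 : ℝ)) * (x 0 * x i.succ) =
        2 * x 0 * t := by
      rw [ht, Finset.mul_sum]
      refine Finset.sum_congr rfl fun i _ => ?_
      simp only [firstRow]
      push_cast
      ring
    have key : ∑ i, ∑ j, (G i j : ℝ) * (x i * x j) =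
        g * (x 0 + t / g) ^ 2 +
          ∑ i : Fin d, ∑ j : Fin d, (schur G i j : ℝ) * (x i.succ * x j.succ) := by
      simp only [Fin.sum_univ_succ, Finset.sum_add_distrib]
      rw [hrest, ← hg]
      have e : (∑ j : Fin d, (G 0 j.succ : ℝ) * (x 0 * x j.succ)) +
          ∑ i : Fin d, (G i.succ 0 : ℝ) * (x i.succ * x 0) = 2 * x 0 * t := by
        rw [← hlin, ← Finset.sum_add_distrib]
        exact Finset.sum_congr rfl fun i _ => by ring
      have e2 : g * (x 0 + t / g) ^ 2 = g * (x 0 * x 0) + 2 * x 0 * t + t * t / g := by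
        field_simp
        ring
      linarith
    rw [key]
    positivity

end Vale.Agent.P100I
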