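import Vale.Agent.P100I.Defs
import Vale.Agent.P100I.Psd

/-!
# P100, integral-identity route: Gram certificates

`check` tests four rational matrices for positive definiteness; `posAt_of_check` turns a
successful test into the pointwise inequality `PosAt`, which is affine in `(p, q, lam, mu)`
once `c` is fixed (`posAt_combine`).
-/

noncomputable section

namespace Vale.Agent.P100I

open Finset

/-- The pointwise inequality of a certificate at exponents `(p, q)`. -/
def PosAt (n : ℕ) (p q lam mu : ℝ) (c : Fin 14 → ℝ) (δ : ℝ) : Prop :=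
  ∀ J : Jet n, J.Ok → δ * J.size ≤ J.dv p q lam mu c

section blocks

variable (m p q lam mu δ : ℚ) (c : Fin 14 → ℚ) (f : Fin 15 → ℚ)

/-- Coefficient of `U a a`. -/
def kUaa : ℚ := 2 * c 0 - 2 * c 8 + lam * c 8
/-- Coefficient of `U a b`. -/
def kUab : ℚ := 2 * c 1 + c 2 - c 9 + lam * c 9 + mu * c 8
/-- Coefficient of `U b b`. -/
def kUbb : ℚ := c 3 - c 9 + mu * c 9
/-- Coefficient of `V a a`. -/
def kVaa : ℚ := c 2 - c 10 + lam * c 10
/-- Coefficient of `V a b`. -/
def kVab : ℚ := c 3 + 2 * c 4 - c 10 + lam * c 11 + mu * c 10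
/-- Coefficient of `V b b`. -/
def kVbb : ℚ := 2 * c 5 - 2 * c 11 + mu * c 11

/-- The block on traceless symmetric matrices. -/
def blk2 : Fin 5 → Fin 5 → ℚ :=
  let x := kUaa lam c / 2
  let y := kUab lam mu c / 2
  let z := kUbb mu c / 2
  let x' := kVaa lam c / 2
  let y' := kVab lam mu c / 2
  let z' := kVbb mu c / 2
  let w := (c 9 + c 10) / 2
  ![![f 0, f 1, f 2, x, x'],
    ![f 1, f 3, f 4, y, y'],
    ![f 2, f 4, f 5, z, z'],
    ![x, y, z, c 8 - δ, w],
    ![x', y', z', w, c 11 - δ]]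

/-- The block on the scalars `|a|², a·b, |b|², P, Q`. -/
def blk0 : Fin 5 → Fin 5 → ℚ :=
  let aa := -3 * c 0 + lam * c 0 - (1 - m) * f 0 - δ
  let ac := (-2 * c 1 - 2 * c 2 + lam * (c 1 + c 2) + mu * c 0) / 2 - (1 - m) * f 1
  let cc := -c 2 - c 3 + lam * c 3 + mu * c 2 - 2 * f 2 - (1 / 2 - m) * f 3 + f 6
  let ab := (-c 1 - c 4 + lam * c 4 + mu * c 1) / 2 + m * f 2 - f 3 / 4 - f 6 / 2 - f 14 / 2
  let cb := (-2 * c 3 - 2 * c 4 + lam * c 5 + mu * (c 3 + c 4)) / 2 - (1 - m) * f 4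
  let bb := -3 * c 5 + mu * c 5 - (1 - m) * f 5 - δ
  let pa := (-c 0 - 2 * c 6 + lam * c 6 - m * kUaa lam c) / 2 - f 7 / 2
  let pc := (-c 2 + p * c 6 - c 7 - p * c 8 + lam * c 7 + mu * c 6 - m * kUab lam mu c) / 2 - f 8
  let pb := (-c 4 + (p - 1) * c 7 - p * c 9 + mu * c 7 - m * kUbb mu c) / 2 - f 9 / 2
  let qa := (-c 1 - q * c 10 + (q - 1) * c 12 + lam * c 12 - m * kVaa lam c) / 2 - f 10 / 2
  let qc := (-c 3 - q * c 11 - c 12 + q * c 13 + lam * c 13 + mu * c 12 -
    m * kVab lam mu c) / 2 - f 11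
  let qb := (-c 5 - 2 * c 13 + mu * c 13 - m * kVbb mu c) / 2 - f 12 / 2
  let pp := -c 6 + m * c 8 - δ * (1 + m)
  let pq := (-c 7 - c 12 + m * (c 9 + c 10)) / 2 - f 13 / 2
  let qq := -c 13 + m * c 11 - δ * (1 + m)
  ![![aa, ac, ab, pa, qa],
    ![ac, cc, cb, pc, qc],
    ![ab, cb, bb, pb, qb],
    ![pa, pc, pb, pp, pq],
    ![qa, qc, qb, pq, qq]]

/-- The block multiplying `P`. -/
def blkP : Fin 2 → Fin 2 → ℚ := ![![f 7, f 8], ![f 8, f 9]]

/-- The block multiplying `Q`. -/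
def blkQ : Fin 2 → Fin 2 → ℚ := ![![f 10, f 11], ![f 11, f 12]]

end blocks

/-- The rational test. -/
def check (n : ℕ) (p q lam mu δ : ℚ) (c : Fin 14 → ℚ) (f : Fin 15 → ℚ) : Bool :=
  psd 5 (blk2 lam mu δ c f) &&
  psd 5 (blk0 (1 / n) p q lam mu δ c f) &&
  psd 2 (blkP f) && psd 2 (blkQ f) &&
  decide (0 ≤ f 6 ∧ 0 ≤ f 13 ∧ 0 ≤ f 14 ∧ 0 < n)

section frob

variable {n : ℕ}

/-- The traceless part of a matrix. -/
def tl (X : Fin n → Fin n → ℝ) (i j : Fin n) : ℝ :=
  X i j - if i = j then (∑ k, X k k) / n else 0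

theorem frob_tl (hn : 0 < n) (X Y : Fin n → Fin n → ℝ) :
    frob (tl X) (tl Y) = frob X Y - (∑ k, X k k) * (∑ k, Y k k) / n := by
  have hn' : (n : ℝ) ≠ 0 := by exact_mod_cast hn.ne'
  simp only [frob, tl]
  have h : ∀ i j : Fin n,
      (X i j - if i = j then (∑ k, X k k) / n else 0) *
        (Y i j - if i = j then (∑ k, Y k k) / n else 0) =
      X i j * Y i j +
        (if i = j then -((∑ k, X k k) / n) * Y i i - ((∑ k, Y k k) / n) * X i i +
          (∑ k, X k k) / n * ((∑ k, Y k k) / n) else 0) := by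
    intro i j
    split_ifs with e
    · subst e; ring
    · ring
  simp only [h, Finset.sum_add_distrib, Finset.sum_ite_eq, Finset.mem_univ, if_true]
  rw [Finset.sum_sub_distrib, ← Finset.mul_sum, ← Finset.mul_sum, Finset.sum_const,
    Finset.card_univ, Fintype.card_fin, nsmul_eq_mul]
  field_simp
  ring

/-- The outer square `a aᵀ`. -/
def outer (a b : Fin n → ℝ) (i j : Fin n) : ℝ := (a i * b j + b i * a j) / 2

theorem trace_outer (a b : Fin n → ℝ) : ∑ k, outer a b k k = dot a b :=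
  Finset.sum_congr rfl fun k _ => by simp only [outer]; ring

theorem frob_outer_outer (a b c d : Fin n → ℝ) :
    frob (outer a b) (outer c d) = (dot a c * dot b d + dot a d * dot b c) / 2 := by
  simp only [frob, outer, dot, Finset.sum_mul_sum, ← Finset.sum_add_distrib, Finset.sum_div]
  rw [← sub_eq_zero, ← Finset.sum_sub_distrib]
  simp only [← Finset.sum_sub_distrib]
  have h : ∀ i j : Fin n, (a i * b j + b i * a j) / 2 * ((c i * d j + d i * c j) / 2) -
      (a i * c i * (b j * d j) + a i * d i * (b j * c j)) / 2 =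
      ((a j * c j * (b i * d i) + a j * d j * (b i * c i)) -
        (a i * c i * (b j * d j) + a i * d i * (b j * c j))) / 4 := by
    intro i j; ring
  simp only [h, sub_div, Finset.sum_sub_distrib]
  rw [Finset.sum_comm (f := fun i j : Fin n =>
    (a j * c j * (b i * d i) + a j * d j * (b i * c i)) / 4)]
  ring

theorem frob_outer_left (X : Fin n → Fin n → ℝ) (hX : ∀ i j, X i j = X j i)
    (a b : Fin n → ℝ) : frob X (outer a b) = quad X a b := by
  have e : frob X (outer a b) = (quad X a b + quad X b a) / 2 := by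
    simp only [frob, quad, outer, ← Finset.sum_add_distrib, Finset.sum_div]
    exact Finset.sum_congr rfl fun i _ => Finset.sum_congr rfl fun j _ => by ring
  have s : quad X b a = quad X a b := by
    simp only [quad]
    rw [Finset.sum_comm]
    exact Finset.sum_congr rfl fun i _ => Finset.sum_congr rfl fun j _ => by
      rw [hX j i]; ring
  rw [e, s]; ring

theorem frob_comm (X Y : Fin n → Fin n → ℝ) : frob X Y = frob Y X :=
  Finset.sum_congr rfl fun _ _ => Finset.sum_congr rfl fun _ _ => mul_comm _ _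

theorem gram_nonneg {d : ℕ} (G : Fin d → Fin d → ℚ) (hG : psd d G = true)
    (X : Fin d → Fin n → Fin n → ℝ) :
    0 ≤ ∑ i, ∑ j, (G i j : ℝ) * frob (X i) (X j) := by
  have h : ∑ i, ∑ j, (G i j : ℝ) * frob (X i) (X j) =
      ∑ k, ∑ l, ∑ i, ∑ j, (G i j : ℝ) * (X i k l * X j k l) := by
    simp only [frob, Finset.mul_sum]
    calc _ = ∑ i, ∑ k, ∑ j, ∑ l, (G i j : ℝ) * (X i k l * X j k l) :=
          Finset.sum_congr rfl fun i _ => Finset.sum_comm
      _ = ∑ k, ∑ i, ∑ j, ∑ l, (G i j : ℝ) * (X i k l * X j k l) := Finset.sum_comm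
      _ = ∑ k, ∑ i, ∑ l, ∑ j, (G i j : ℝ) * (X i k l * X j k l) :=
          Finset.sum_congr rfl fun k _ => Finset.sum_congr rfl fun i _ => Finset.sum_comm
      _ = _ := Finset.sum_congr rfl fun k _ => Finset.sum_comm
  rw [h]
  exact Finset.sum_nonneg fun k _ => Finset.sum_nonneg fun l _ =>
    qf_nonneg_of_psd G hG fun i => X i k l

theorem gram2_nonneg (G : Fin 2 → Fin 2 → ℚ) (hG : psd 2 G = true) (a b : Fin n → ℝ) :
    0 ≤ (G 0 0 : ℝ) * dot a a + ((G 0 1 : ℝ) + G 1 0) * dot a b + (G 1 1 : ℝ) * dot b b := by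
  have h := Finset.sum_nonneg fun k (_ : k ∈ (Finset.univ : Finset (Fin n))) =>
    qf_nonneg_of_psd G hG ![a k, b k]
  simp only [Fin.sum_univ_two, Matrix.cons_val_zero, Matrix.cons_val_one] at h
  simp only [dot, Finset.mul_sum, ← Finset.sum_add_distrib]
  refine le_of_le_of_eq h (Finset.sum_congr rfl fun k _ => ?_)
  ring

theorem dot_comm (a b : Fin n → ℝ) : dot a b = dot b a :=
  Finset.sum_congr rfl fun _ _ => mul_comm _ _

theorem dot_self_nonneg (a : Fin n → ℝ) : 0 ≤ dot a a :=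
  Finset.sum_nonneg fun i _ => mul_self_nonneg (a i)

theorem dot_sq_le (a b : Fin n → ℝ) : dot a b ^ 2 ≤ dot a a * dot b b := by
  simpa only [dot, pow_two] using Finset.sum_mul_sq_le_sq_mul_sq Finset.univ a b

theorem dot_mulVec (X : Fin n → Fin n → ℝ) (a b : Fin n → ℝ) :
    ∑ i, a i * ∑ j, X i j * b j = quad X a b := by
  simp only [quad, Finset.mul_sum]
  exact Finset.sum_congr rfl fun i _ => Finset.sum_congr rfl fun j _ => by ring

theorem quad_swap (X : Fin n → Fin n → ℝ) (hX : ∀ i j, X i j = X j i) (a b : Fin n → ℝ) :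
    quad X b a = quad X a b := by
  simp only [quad]
  rw [Finset.sum_comm]
  exact Finset.sum_congr rfl fun i _ => Finset.sum_congr rfl fun j _ => by rw [hX j i]; ring

theorem dot_lin (x a b w₁ w₂ w₃ w₄ : Fin n → ℝ) (c : Fin 14 → ℝ) (A C B P Q : ℝ) :
    ∑ i, x i * (c 0 * (A * a i) + c 1 * (A * b i) + c 2 * (C * a i) + c 3 * (C * b i) +
      c 4 * (B * a i) + c 5 * (B * b i) + c 6 * (P * a i) + c 7 * (P * b i) +
      c 8 * w₁ i + c 9 * w₂ i + c 10 * w₃ i + c 11 * w₄ i +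
      c 12 * (Q * a i) + c 13 * (Q * b i)) =
      c 0 * (A * dot x a) + c 1 * (A * dot x b) + c 2 * (C * dot x a) + c 3 * (C * dot x b) +
      c 4 * (B * dot x a) + c 5 * (B * dot x b) + c 6 * (P * dot x a) + c 7 * (P * dot x b) +
      c 8 * dot x w₁ + c 9 * dot x w₂ + c 10 * dot x w₃ + c 11 * dot x w₄ +
      c 12 * (Q * dot x a) + c 13 * (Q * dot x b) := by
  simp only [dot, Finset.mul_sum, ← Finset.sum_add_distrib]
  exact Finset.sum_congr rfl fun i _ => by ring

theorem dot_fld (J : Jet n) (c : Fin 14 → ℝ) (x : Fin n → ℝ) :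
    dot x (J.fld c) =
      c 0 * (dot J.a J.a * dot x J.a) + c 1 * (dot J.a J.a * dot x J.b) +
      c 2 * (dot J.a J.b * dot x J.a) + c 3 * (dot J.a J.b * dot x J.b) +
      c 4 * (dot J.b J.b * dot x J.a) + c 5 * (dot J.b J.b * dot x J.b) +
      c 6 * (J.P * dot x J.a) + c 7 * (J.P * dot x J.b) +
      c 8 * quad J.U x J.a + c 9 * quad J.U x J.b +
      c 10 * quad J.V x J.a + c 11 * quad J.V x J.b +
      c 12 * (J.Q * dot x J.a) + c 13 * (J.Q * dot x J.b) := by
  rw [← dot_mulVec J.U x J.a, ← dot_mulVec J.U x J.b, ← dot_mulVec J.V x J.a,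
    ← dot_mulVec J.V x J.b]
  exact dot_lin x J.a J.b (fun i => ∑ j, J.U i j * J.a j) (fun i => ∑ j, J.U i j * J.b j)
    (fun i => ∑ j, J.V i j * J.a j) (fun i => ∑ j, J.V i j * J.b j) c _ _ _ _ _

/-- A successful test gives the pointwise inequality. -/
theorem posAt_of_check {n : ℕ} {p q lam mu δ : ℚ} {c : Fin 14 → ℚ} {f : Fin 15 → ℚ}
    (h : check n p q lam mu δ c f = true) :
    PosAt n p q lam mu (fun i => (c i : ℝ)) δ := by
  simp only [check, Bool.and_eq_true, decide_eq_true_eq] at h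
  obtain ⟨⟨⟨⟨h2, h0⟩, hP⟩, hQ⟩, f6, f13, f14, hn⟩ := h
  intro J hJ
  have hn' : (n : ℝ) ≠ 0 := by exact_mod_cast hn.ne'
  have F := gram_nonneg _ h2 ![tl (outer J.a J.a), tl (outer J.a J.b), tl (outer J.b J.b),
    tl J.U, tl J.V]
  have S := qf_nonneg_of_psd _ h0
    ![dot J.a J.a, dot J.a J.b, dot J.b J.b, J.P, J.Q]
  have TP := mul_nonneg hJ.posP.le (gram2_nonneg _ hP J.a J.b)
  have TQ := mul_nonneg hJ.posQ.le (gram2_nonneg _ hQ J.a J.b)
  have W := mul_nonneg (show (0 : ℝ) ≤ f 6 by exact_mod_cast f6)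
    (sub_nonneg.2 (dot_sq_le J.a J.b))
  have M := mul_nonneg (show (0 : ℝ) ≤ f 13 by exact_mod_cast f13)
    (mul_nonneg hJ.posP.le hJ.posQ.le)
  have N := mul_nonneg (show (0 : ℝ) ≤ f 14 by exact_mod_cast f14)
    (mul_nonneg (dot_self_nonneg J.a) (dot_self_nonneg J.b))
  have symO : ∀ a b : Fin n → ℝ, ∀ i j, outer a b i j = outer a b j i := by
    intro a b i j; simp only [outer]; ring
  simp only [Fin.sum_univ_five, Matrix.cons_val, frob_tl hn, trace_outer, frob_outer_outer,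
    frob_outer_left J.U hJ.symU, frob_outer_left J.V hJ.symV, frob_comm (outer _ _) J.U,
    frob_comm (outer _ _) J.V, frob_comm J.V J.U, hJ.trU, hJ.trV] at F
  simp only [Fin.sum_univ_five, Matrix.cons_val] at S
  simp only [blk2, kUaa, kUab, kUbb, kVaa, kVab, kVbb, Matrix.cons_val] at F
  simp only [blk0, kUaa, kUab, kUbb, kVaa, kVab, kVbb, Matrix.cons_val] at S
  simp only [blkP, Matrix.cons_val] at TP
  simp only [blkQ, Matrix.cons_val] at TQ
  push_cast at F S TP TQ ⊢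
  simp only [Jet.dv, Jet.dv0, Jet.size, dot_fld, quad_swap J.U hJ.symU J.a J.b,
    quad_swap J.V hJ.symV J.a J.b, dot_comm J.b J.a]
  rw [dot_comm J.b J.a] at *
  ring_nf at F S TP TQ W M N ⊢
  linarith

end frob

end Vale.Agent.P100I
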