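import Vale.Agent.P100I.Field

/-!
# P100, integral-identity route: the weighted identity of a solution
-/

noncomputable section

namespace Vale.Agent.P100I

open Filter Topology Set MeasureTheory Finset Vale.Agent.P100H

variable {n : ℕ}

/-- a solution away from the origin -/
structure Sys (p q : ℝ) (u v : E n → ℝ) : Prop where
  cu : C2p u
  cv : C2p v
  eu : ∀ x : E n, x ≠ 0 → Laplacian.laplacian u x = -(v x ^ p)
  ev : ∀ x : E n, x ≠ 0 → Laplacian.laplacian v x = -(u x ^ q)

/-- the jet of a pair of functions -/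
def jet (p q : ℝ) (u v : E n → ℝ) (x : E n) : Jet n where
  a i := lg u i x
  b i := lg v i x
  U i j := nh u i j x
  V i j := nh v i j x
  P := v x ^ p / u x
  Q := u x ^ q / v x

/-- the weight -/
def wt (lam mu : ℝ) (u v : E n → ℝ) (x : E n) : ℝ := u x ^ lam * v x ^ mu

theorem Sys.ok {p q : ℝ} {u v : E n → ℝ} (h : Sys p q u v) {x : E n} (hx : x ≠ 0) :
    (jet p q u v x).Ok where
  symU i j := nh_symm h.cu i j hx
  symV i j := nh_symm h.cv i j hx
  trU := by rw [show ∑ i, (jet p q u v x).U i i = ∑ i, nh u i i x from rfl, nh_trace h.cu hx, h.eu x hx, neg_div]; rfl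
  trV := by rw [show ∑ i, (jet p q u v x).V i i = ∑ i, nh v i i x from rfl, nh_trace h.cv hx, h.ev x hx, neg_div]; rfl
  posP := div_pos (Real.rpow_pos_of_pos (h.cv x hx).2 _) (h.cu x hx).2
  posQ := div_pos (Real.rpow_pos_of_pos (h.cu x hx).2 _) (h.cv x hx).2

theorem pd_dot {z w : E n → ℝ} (hz : C2p z) (hw : C2p w) (i : Fin n) {x : E n} (hx : x ≠ 0) :
    pd (fun y => ∑ j, lg z j y * lg w j y) i x =
      (∑ j, nh z i j x * lg w j x) + (∑ j, nh w i j x * lg z j x) -
        (lg z i x + lg w i x) * ∑ j, lg z j x * lg w j x := by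
  rw [pd_sum fun j _ => ((hz.lg_c1 j x hx).mul (hw.lg_c1 j x hx)).differentiableAt one_ne_zero, mul_sum,
    ← sum_add_distrib, ← sum_sub_distrib]
  refine sum_congr rfl fun j _ => ?_
  rw [pd_mul ((hz.lg_c1 j x hx).differentiableAt one_ne_zero) ((hw.lg_c1 j x hx).differentiableAt one_ne_zero),
    pd_lg hz i j hx, pd_lg hw i j hx]
  ring

theorem c1_dot {z w : E n → ℝ} (hz : C2p z) (hw : C2p w) : C1 fun y => ∑ j, lg z j y * lg w j y :=
  fun x hx => ContDiffAt.sum fun j _ => (hz.lg_c1 j x hx).mul (hw.lg_c1 j x hx)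

theorem c1_rpow {z : E n → ℝ} (hz : C2p z) (r : ℝ) : C1 fun y => z y ^ r := fun x hx =>
  (hz.c1 x hx).rpow_const_of_ne (hz.ne hx)

theorem c1_ratio {z w : E n → ℝ} (hz : C2p z) (hw : C2p w) (r : ℝ) : C1 fun y => w y ^ r / z y :=
  fun x hx => (c1_rpow hw r x hx).div (hz.c1 x hx) (hz.ne hx)

theorem pd_ratio {z w : E n → ℝ} (hz : C2p z) (hw : C2p w) (r : ℝ) (i : Fin n) {x : E n} (hx : x ≠ 0) :
    pd (fun y => w y ^ r / z y) i x = w x ^ r / z x * (r * lg w i x - lg z i x) := by
  rw [pd_div (f := fun y => w y ^ r) ((c1_rpow hw r x hx).differentiableAt one_ne_zero)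
      ((hz.c1 x hx).differentiableAt one_ne_zero) (hz.ne hx),
    pd_rpow ((hw.c1 x hx).differentiableAt one_ne_zero) (hw x hx).2]
  simp only [lg]
  field_simp [hz.ne hx, hw.ne hx]

theorem pd_pow_div {z w : E n → ℝ} (hw : C2p w) (r : ℝ) (i : Fin n) {x : E n} (hx : x ≠ 0) :
    pd (fun y => w y ^ r) i x / z x = r * (w x ^ r / z x) * lg w i x := by
  rw [pd_rpow ((hw.c1 x hx).differentiableAt one_ne_zero) (hw x hx).2]
  simp only [lg]
  ring

theorem quad_eq (M : Fin n → Fin n → ℝ) (c d : Fin n → ℝ) :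
    ∑ i, (∑ j, M i j * c j) * d i = quad M d c := by
  simp only [quad, sum_mul]
  exact sum_congr rfl fun i _ => sum_congr rfl fun j _ => by ring

theorem quad_symm {M : Fin n → Fin n → ℝ} (h : ∀ i j, M i j = M j i) (c d : Fin n → ℝ) :
    quad M c d = quad M d c := by
  simp only [quad]
  rw [sum_comm]
  exact sum_congr rfl fun i _ => sum_congr rfl fun j _ => by rw [h j i]; ring

/-- the normalised gradient as a vector -/
def lgv (z : E n → ℝ) (x : E n) : Fin n → ℝ := fun j => lg z j x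

/-- the normalised Hessian as a matrix -/
def nhm (z : E n → ℝ) (x : E n) : Fin n → Fin n → ℝ := fun i j => nh z i j x

theorem dot_comm (c d : Fin n → ℝ) : dot c d = dot d c := sum_congr rfl fun _ _ => mul_comm _ _

theorem dot_fld (J : Jet n) (c : Fin 14 → ℝ) (d : Fin n → ℝ) :
    dot d (J.fld c) = c 0 * (dot J.a J.a * dot d J.a) + c 1 * (dot J.a J.a * dot d J.b) +
        c 2 * (dot J.a J.b * dot d J.a) + c 3 * (dot J.a J.b * dot d J.b) +
        c 4 * (dot J.b J.b * dot d J.a) + c 5 * (dot J.b J.b * dot d J.b) +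
        c 6 * (J.P * dot d J.a) + c 7 * (J.P * dot d J.b) +
        c 8 * quad J.U d J.a + c 9 * quad J.U d J.b + c 10 * quad J.V d J.a + c 11 * quad J.V d J.b +
        c 12 * (J.Q * dot d J.a) + c 13 * (J.Q * dot d J.b) := by
  have e1 : ∀ (r s : ℝ) (g : Fin n → ℝ), ∑ i, d i * (r * (s * g i)) = r * (s * ∑ i, d i * g i) :=
    fun r s g => by simp only [mul_sum]; exact sum_congr rfl fun i _ => by ring
  have e2 : ∀ (r : ℝ) (M : Fin n → Fin n → ℝ) (g : Fin n → ℝ),
      ∑ i, d i * (r * ∑ j, M i j * g j) = r * quad M d g := fun r M g => by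
    simp only [quad, mul_sum]
    exact sum_congr rfl fun i _ => sum_congr rfl fun j _ => by ring
  simp only [Jet.fld, dot, mul_add, sum_add_distrib, e1, e2]

section instances

variable {p q lam mu : ℝ} {u v z w y : E n → ℝ} {f : E n → ℝ}

/-- the hypotheses on a weight -/
theorem wt_data (h : Sys p q u v) (lam mu : ℝ) :
    C1 (wt lam mu u v) ∧ (∀ i, C0 fun x => lam * lg u i x + mu * lg v i x) ∧
      ∀ i, ∀ x : E n, x ≠ 0 → pd (wt lam mu u v) i x = wt lam mu u v x * (lam * lg u i x + mu * lg v i x) := by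
  have hu := h.cu
  have hv := h.cv
  refine ⟨fun x hx => (c1_rpow hu lam x hx).mul (c1_rpow hv mu x hx), fun i x hx =>
    (((hu.lg_c1 i).c0 x hx).const_mul lam).add (((hv.lg_c1 i).c0 x hx).const_mul mu), fun i x hx => ?_⟩
  rw [show wt lam mu u v = fun y => u y ^ lam * v y ^ mu from rfl,
    pd_mul (f := fun y => u y ^ lam) ((c1_rpow hu lam x hx).differentiableAt one_ne_zero)
      ((c1_rpow hv mu x hx).differentiableAt one_ne_zero),
    pd_rpow ((hu.c1 x hx).differentiableAt one_ne_zero) (hu x hx).2,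
    pd_rpow ((hv.c1 x hx).differentiableAt one_ne_zero) (hv x hx).2]
  simp only [lg]
  ring

theorem dl (d : Fin n → ℝ) (x : E n) :
    ∑ i, (lam * lg u i x + mu * lg v i x) * d i = lam * dot (lgv u x) d + mu * dot (lgv v x) d := by
  simp only [dot, lgv, mul_sum, ← sum_add_distrib]
  exact sum_congr rfl fun i _ => by ring

theorem isDiv_dot (h : Sys p q u v) (hz : C2p z) (hw : C2p w) (hy : C2p y) (hf : C1 f)
    (hlap : ∀ x : E n, x ≠ 0 → Laplacian.laplacian y x = -f x) :
    IsDiv (fun i x => wt lam mu u v x * (dot (lgv z x) (lgv w x) * lg y i x))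
      (fun x => wt lam mu u v x * (quad (nhm z x) (lgv y x) (lgv w x) + quad (nhm w x) (lgv y x) (lgv z x) -
        (dot (lgv z x) (lgv y x) + dot (lgv w x) (lgv y x)) * dot (lgv z x) (lgv w x) +
        dot (lgv z x) (lgv w x) * (-(f x / y x) - dot (lgv y x) (lgv y x)) +
        dot (lgv z x) (lgv w x) * (lam * dot (lgv u x) (lgv y x) + mu * dot (lgv v x) (lgv y x)))) := by
  obtain ⟨h1, h2, h3⟩ := wt_data h lam mu
  refine (isDiv_scalar h1 h2 h3 hy hf hlap (c1_dot hz hw)).congr (fun i x _ => rfl) fun x hx => ?_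
  have e : ∑ i, pd (fun y => ∑ j, lg z j y * lg w j y) i x * lg y i x =
      quad (nhm z x) (lgv y x) (lgv w x) + quad (nhm w x) (lgv y x) (lgv z x) -
        (dot (lgv z x) (lgv y x) + dot (lgv w x) (lgv y x)) * dot (lgv z x) (lgv w x) := by
    simp only [pd_dot hz hw _ hx, sub_mul, add_mul, sum_sub_distrib, sum_add_distrib, quad_eq]
    simp only [dot, lgv, nhm, sum_mul]
    congr 1
    congr 1 <;> exact sum_congr rfl fun i _ => by ring
  simp only [e, dl]
  rfl

theorem isDiv_ratio (h : Sys p q u v) (hz : C2p z) (hw : C2p w) (hy : C2p y) (hf : C1 f)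
    (hlap : ∀ x : E n, x ≠ 0 → Laplacian.laplacian y x = -f x) (r : ℝ) :
    IsDiv (fun i x => wt lam mu u v x * (w x ^ r / z x * lg y i x))
      (fun x => wt lam mu u v x * (w x ^ r / z x * (r * dot (lgv w x) (lgv y x) - dot (lgv z x) (lgv y x)) +
        w x ^ r / z x * (-(f x / y x) - dot (lgv y x) (lgv y x)) +
        w x ^ r / z x * (lam * dot (lgv u x) (lgv y x) + mu * dot (lgv v x) (lgv y x)))) := by
  obtain ⟨h1, h2, h3⟩ := wt_data h lam mu
  refine (isDiv_scalar h1 h2 h3 hy hf hlap (c1_ratio hz hw r)).congr (fun i x _ => rfl) fun x hx => ?_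
  have e : ∑ i, pd (fun y => w y ^ r / z y) i x * lg y i x =
      w x ^ r / z x * (r * dot (lgv w x) (lgv y x) - dot (lgv z x) (lgv y x)) := by
    simp only [pd_ratio hz hw r _ hx, dot, lgv, mul_sum, ← sum_sub_distrib]
    exact sum_congr rfl fun i _ => by ring
  simp only [e, dl]
  rfl

theorem isDiv_hess' (h : Sys p q u v) (hz : C2p z) (hw : C2p w) (hy : C2p y) (r : ℝ)
    (hlap : ∀ x : E n, x ≠ 0 → Laplacian.laplacian z x = -(y x ^ r)) :
    IsDiv (fun i x => wt lam mu u v x * ∑ j, nh z i j x * lg w j x)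
      (fun x => wt lam mu u v x * (frob (nhm z x) (nhm w x) +
        (lam * quad (nhm z x) (lgv u x) (lgv w x) + mu * quad (nhm z x) (lgv v x) (lgv w x) -
          quad (nhm z x) (lgv z x) (lgv w x) - quad (nhm z x) (lgv w x) (lgv w x)) -
        r * (y x ^ r / z x) * dot (lgv y x) (lgv w x))) := by
  obtain ⟨h1, h2, h3⟩ := wt_data h lam mu
  refine (isDiv_hess h1 h2 h3 hz hw (c1_rpow hy r) hlap).congr (fun i x _ => rfl) fun x hx => ?_
  have e : ∑ i, (lam * lg u i x + mu * lg v i x - lg z i x - lg w i x) * ∑ j, nh z i j x * lg w j x =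
      lam * quad (nhm z x) (lgv u x) (lgv w x) + mu * quad (nhm z x) (lgv v x) (lgv w x) -
          quad (nhm z x) (lgv z x) (lgv w x) - quad (nhm z x) (lgv w x) (lgv w x) := by
    simp only [quad, lgv, nhm, mul_sum, ← sum_add_distrib, ← sum_sub_distrib]
    exact sum_congr rfl fun i _ => sum_congr rfl fun j _ => by ring
  have e' : ∑ i, pd (fun t => y t ^ r) i x / z x * lg w i x = r * (y x ^ r / z x) * dot (lgv y x) (lgv w x) := by
    simp only [pd_pow_div (z := z) hy r _ hx, dot, lgv, mul_sum]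
    exact sum_congr rfl fun i _ => by ring
  simp only [e, e']
  rfl

end instances

/-- **the weighted identity** -/
theorem Sys.identity {p q : ℝ} {u v : E n → ℝ} (h : Sys p q u v) (lam mu : ℝ) (c : Fin 14 → ℝ) :
    IsDiv (fun i x => wt lam mu u v x * (jet p q u v x).fld c i)
      (fun x => wt lam mu u v x * (jet p q u v x).dv p q lam mu c) := by
  have hu := h.cu
  have hv := h.cv
  have hfu := c1_rpow hv p
  have hfv := c1_rpow hu q
  have k0 := (isDiv_dot (lam := lam) (mu := mu) h hu hu hu hfu h.eu).smul (c 0)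
  have k1 := k0.add ((isDiv_dot (lam := lam) (mu := mu) h hu hu hv hfv h.ev).smul (c 1))
  have k2 := k1.add ((isDiv_dot (lam := lam) (mu := mu) h hu hv hu hfu h.eu).smul (c 2))
  have k3 := k2.add ((isDiv_dot (lam := lam) (mu := mu) h hu hv hv hfv h.ev).smul (c 3))
  have k4 := k3.add ((isDiv_dot (lam := lam) (mu := mu) h hv hv hu hfu h.eu).smul (c 4))
  have k5 := k4.add ((isDiv_dot (lam := lam) (mu := mu) h hv hv hv hfv h.ev).smul (c 5))
  have k6 := k5.add ((isDiv_ratio (lam := lam) (mu := mu) h hu hv hu hfu h.eu p).smul (c 6))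
  have k7 := k6.add ((isDiv_ratio (lam := lam) (mu := mu) h hu hv hv hfv h.ev p).smul (c 7))
  have k8 := k7.add ((isDiv_hess' (lam := lam) (mu := mu) h hu hu hv p h.eu).smul (c 8))
  have k9 := k8.add ((isDiv_hess' (lam := lam) (mu := mu) h hu hv hv p h.eu).smul (c 9))
  have k10 := k9.add ((isDiv_hess' (lam := lam) (mu := mu) h hv hu hu q h.ev).smul (c 10))
  have k11 := k10.add ((isDiv_hess' (lam := lam) (mu := mu) h hv hv hu q h.ev).smul (c 11))
  have k12 := k11.add ((isDiv_ratio (lam := lam) (mu := mu) h hv hu hu hfu h.eu q).smul (c 12))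
  have k13 := k12.add ((isDiv_ratio (lam := lam) (mu := mu) h hv hu hv hfv h.ev q).smul (c 13))
  refine k13.congr (fun i x _ => ?_) fun x hx => ?_
  · simp only [Jet.fld, jet, dot, lgv]
    ring
  · have hok : (jet p q u v x).Ok := h.ok hx
    have qU : ∀ c d : Fin n → ℝ, quad (nhm u x) c d = quad (nhm u x) d c :=
      fun c d => quad_symm (fun i j => hok.symU i j) c d
    have qV : ∀ c d : Fin n → ℝ, quad (nhm v x) c d = quad (nhm v x) d c :=
      fun c d => quad_symm (fun i j => hok.symV i j) c d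
    have fUV : frob (nhm v x) (nhm u x) = frob (nhm u x) (nhm v x) :=
      sum_congr rfl fun i _ => sum_congr rfl fun j _ => mul_comm _ _
    rw [Jet.dv, dot_fld, dot_fld, Jet.dv0]
    rw [show (jet p q u v x).a = lgv u x from rfl, show (jet p q u v x).b = lgv v x from rfl,
      show (jet p q u v x).U = nhm u x from rfl, show (jet p q u v x).V = nhm v x from rfl,
      show (jet p q u v x).P = v x ^ p / u x from rfl, show (jet p q u v x).Q = u x ^ q / v x from rfl]
    rw [dot_comm (lgv v x) (lgv u x), qU (lgv v x) (lgv u x), qV (lgv v x) (lgv u x), fUV]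
    ring

end Vale.Agent.P100I
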